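import Vale.Agent.P182.H533.Conn

/-!
# The structure theorem on the core in the null case: definitions and statements

`S_1 + S_2 + S_3 = 0` are self adjoint, all Jordan blocks of `S_s` have the size `p_s`,
`∑ 1 / p_s = 1`.  If every infinitesimal isospectral deformation is realised by a metric
connection, then the symmetric operators commuting with all `S_s` are spanned by orthogonal
idempotents.
-/

namespace Vale.Agent.P182.H89

open Module Vale.Agent.P182.H533

universe u v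

section defs

variable {L : Type u} {V : Type v} [Field L] [AddCommGroup V] [Module L V]

/-- the linear combination `∑ a_s S_s` -/
def Ta (S : Fin 3 → End L V) (a : Fin 3 → L) : End L V := ∑ s, a s • S s

/-- the null type: `S_1 + S_2 + S_3 = 0`, self adjoint, all Jordan blocks of `S_s` of size `p_s`,
`∑ 1 / p_s = 1` -/
structure Nul (q : V →ₗ[L] V →ₗ[L] L) (S : Fin 3 → End L V) (p : Fin 3 → ℕ) : Prop where
  form : IsForm q
  sa : ∀ s, IsSA q (S s)
  sum : ∑ s, S s = 0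
  pow : ∀ s, S s ^ p s = 0
  rk : ∀ s, finrank L V = p s * finrank L (LinearMap.ker (S s))
  tot : ∑ s, finrank L (LinearMap.ker (S s)) = finrank L V
  span : ⨆ s, LinearMap.range (S s) = ⊤

/-- exact realisation of the infinitesimal isospectral deformations -/
def RealS (q : V →ₗ[L] V →ₗ[L] L) (S : Fin 3 → End L V) : Prop :=
  ∀ A : Fin 3 → End L V, (∀ s, IsSk q (A s)) → ∑ s, (A s * S s - S s * A s) = 0 →
    ∃ n : Conn q, ∀ s v, n.δ (S s v) = S s (n.δ v) + (A s (S s v) - S s (A s v))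

/-- `z` is central and `T_a ^ N = P(a) z` -/
structure Cen (S : Fin 3 → End L V) (N : ℕ) (P : (Fin 3 → L) → L) (z : End L V) : Prop where
  three_le : 3 ≤ N
  comm : ∀ s, z * S s = S s * z
  pow : ∀ a, Ta S a ^ N = P a • z
  ne : ∀ a, Function.Injective a → P a ≠ 0

/-- relations between elements of the kernels -/
def Kr (S : Fin 3 → End L V) (v : Fin 3 → V) : Prop := (∀ s, S s (v s) = 0) ∧ ∑ s, v s = 0

/-- the chains: for `v` in `Kr`, `w = S_2 v_1`: `T_b ^ (N - 2) w = Q(b) T_b G w`, `S_s² G w = 0`.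
(`N = 3`: `G = 1`, `Q = 1`; `(2,4,4)`: `G = S_2`, `Q = b_2 - b_3`; `(2,3,6)`: `G = S_2 S_1 S_2`,
`Q = (b_2 - b_3)² (b_1 - b_3)`.) -/
structure Chn (S : Fin 3 → End L V) (N : ℕ) (Q : (Fin 3 → L) → L) (G : End L V) : Prop where
  sq : ∀ v, Kr S v → ∀ s, S s (S s (G (S 1 (v 0)))) = 0
  pow : ∀ v, Kr S v → ∀ b, (Ta S b ^ (N - 2)) (S 1 (v 0)) = Q b • Ta S b (G (S 1 (v 0)))
  inj : ∀ v, Kr S v → G (S 1 (v 0)) = 0 → S 1 (v 0) = 0
  ne : ∀ b, Function.Injective b → Q b ≠ 0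

/-- `[C]`: centre and chains for the three types (only `S_s ^ p_s = 0`, `∑ S_s = 0` are used) -/
def StmtC (S : Fin 3 → End L V) : Prop := ∀ p : Fin 3 → ℕ,
  (p = ![3, 3, 3] ∨ p = ![2, 4, 4] ∨ p = ![2, 3, 6]) → ∑ s, S s = 0 → (∀ s, S s ^ p s = 0) →
    ∃ N P z Q G, Cen S N P z ∧ Chn S N Q G

/-- `[T1]`: type constancy -/
def StmtT1 (q : V →ₗ[L] V →ₗ[L] L) (S : Fin 3 → End L V) : Prop := ∀ p, Nul q S p → RealS q S →
  ∀ N P z, Cen S N P z → ∀ ζ : L, IsNilpotent (z - ζ • (1 : End L V)) →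
  ∀ m : Fin 3 → ℤ, Function.Injective m →
  ∀ A : Fin 3 → End L V, (∀ s, IsSk q (A s)) → ∑ s, (A s * S s - S s * A s) = 0 →
  ∃ κ : L, ∀ c : End L V, c * Ta S (fun s => (m s : L)) = Ta S (fun s => (m s : L)) * c →
    LinearMap.trace L V (c * ∑ s, (m s : L) • (A s * S s - S s * A s)) =
      κ * LinearMap.trace L V (c * Ta S (fun s => (m s : L)))

/-- `[T2]`: the operator `B` -/
def StmtT2 (q : V →ₗ[L] V →ₗ[L] L) (S : Fin 3 → End L V) : Prop := ∀ p, Nul q S p → RealS q S →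
  ∀ N P z, Cen S N P z → ∀ ζ : L, IsNilpotent (z - ζ • (1 : End L V)) →
  ∀ m : Fin 3 → ℤ, Function.Injective m →
  ∀ c : End L V, IsSA q c → c * Ta S (fun s => (m s : L)) = Ta S (fun s => (m s : L)) * c →
    LinearMap.trace L V (c * Ta S (fun s => (m s : L))) = 0 →
    ∃ B : End L V, IsSA q B ∧
      ∀ s, (B - (m s : L) • c) * S s = S s * (B - (m s : L) • c)

/-- `[K]`: the centre is not nilpotent -/
def StmtK (q : V →ₗ[L] V →ₗ[L] L) (S : Fin 3 → End L V) : Prop := ∀ p, Nul q S p → RealS q S →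
  ∀ N P z Q G, Cen S N P z → Chn S N Q G → IsNilpotent z → finrank L V = 0

/-- `[S]`: the centre is semisimple -/
def StmtS (q : V →ₗ[L] V →ₗ[L] L) (S : Fin 3 → End L V) : Prop := ∀ p, Nul q S p → RealS q S →
  ∀ N P z, Cen S N P z → ∀ ζ : L, ζ ≠ 0 → IsNilpotent (z - ζ • (1 : End L V)) →
    z = ζ • (1 : End L V)

/-- `[E]`: the symmetric commutant is trivial if the centre is scalar -/
def StmtE (q : V →ₗ[L] V →ₗ[L] L) (S : Fin 3 → End L V) : Prop := ∀ p, Nul q S p → RealS q S →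
  ∀ N P z, Cen S N P z → ∀ ζ : L, ζ ≠ 0 → z = ζ • (1 : End L V) →
  ∀ M, IsSA q M → (∀ s, M * S s = S s * M) → ∃ κ : L, M = κ • (1 : End L V)

/-- the conclusion: the symmetric commutant is spanned by orthogonal idempotents, and
the kernels are independent -/
def StructS (q : V →ₗ[L] V →ₗ[L] L) (S : Fin 3 → End L V) : Prop :=
  (∃ (m : ℕ) (e : Fin m → End L V), (∀ i, IsSA q (e i)) ∧ (∀ i s, e i * S s = S s * e i) ∧
    (∀ i j, e i * e j = if i = j then e i else 0) ∧ ∑ i, e i = 1 ∧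
    ∀ M, IsSA q M → (∀ s, M * S s = S s * M) → ∃ κ : Fin m → L, M = ∑ i, κ i • e i) ∧
  ∀ v, Kr S v → v = 0

end defs

end Vale.Agent.P182.H89
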