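import Vale.Agent.P182.H89.BaseI
import Vale.Agent.P182.H983.GDef
import Vale.Agent.P182.H55.Solv

/-!
# The glued null case: the subspaces `HHI s`, the commutants, and the end

`HHI s` is the space of all endomorphisms `h` of `V₁` such that the lift of `h` to `W ⊗ W`, put on
the arm `s`, is in `WF`.
-/

namespace Vale.Agent.P182.H89

open Vale.Agent.P182.H922 hiding ext0
open Module Matrix Vale.Agent.P182.H533 Vale.Agent.P182.B1 Vale.Agent.P182.H578
  Vale.Agent.P182.H588 Vale.Agent.P182.H181 Vale.Agent.P182.H983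

universe u v w

section gen

variable {L V ι : Type*} [Field L] [AddCommGroup V] [Module L V] [FiniteDimensional L V]
  {q : V →ₗ[L] V →ₗ[L] L} {S : ι → End L V}

/-- adjoints exist -/
theorem exists_adjI (hq : IsForm q) (T : End L V) : ∃ T' : End L V, IsAdj q T' T := by
  obtain ⟨D, hD⟩ := hq.exists_end (q.compl₂ T)
  exact ⟨D, fun v w => by rw [hD, LinearMap.compl₂_apply]⟩

theorem P_I (C : Core q S) (hq : IsForm q) {i : V} (hi : i ∈ C.I) : C.P hq i = 0 :=
  C.P_eq_zero hq hi.2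

theorem mem_I_of (C : Core q S) (hq : IsForm q) {w : V} (hw : w ∈ C.W) (h : C.P hq w = 0) :
    w ∈ C.I := by
  have h1 := C.sub_P_mem_I hq hw
  rwa [h, Submodule.coe_zero, sub_zero] at h1

theorem P_S_W (C : Core q S) (hq : IsForm q) (hS : ∀ s, IsSA q (S s)) (s : ι) {v : V}
    (hv : v ∈ C.W) : C.P hq (S s v) = C.S1 hq s (C.P hq v) :=
  C.P_S hq hS s (C.W_le_perp hq hv)

/-- the form on `W` -/
theorem q_PP (C : Core q S) (hq : IsForm q) {w v : V} (hw : w ∈ C.W) (hv : v ∈ C.W) :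
    q w v = C.q1 (C.P hq w) (C.P hq v) := by
  have h1 := C.sub_P_mem_I hq hv
  have h2 : q w (v - C.P hq v) = 0 := C.I_ortho_W hq h1 hw
  rw [map_sub, sub_eq_zero] at h2
  rw [h2, C.q_P]

/-- tensors mapping `W` to `I` -/
theorem Ten_of_rad (C : Core q S) (hq : IsForm q) {T : End L V} (hT : T ∈ Ten q C.W C.W)
    (h : ∀ w ∈ C.W, T w ∈ C.I) : T ∈ Ten q C.I C.W ⊔ Ten q C.W C.I := by
  have h1 : T - C.V1.subtype ∘ₗ C.P hq ∘ₗ T ∈ Ten q C.I C.W :=
    ⟨fun v => C.sub_P_mem_I hq (hT.1 v), fun v hv => by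
      show T v - (C.P hq (T v) : V) = 0
      rw [hT.2 v hv, map_zero, Submodule.coe_zero, sub_zero]⟩
  have h2 : C.V1.subtype ∘ₗ C.P hq ∘ₗ T ∈ Ten q C.W C.I :=
    ⟨fun v => C.V1_le (C.P hq (T v)).2, fun v hv => by
      show (C.P hq (T v) : V) = 0
      have h3 : v = (C.P hq v : V) + (v - C.P hq v) := by abel
      have h4 : C.P hq (T v) = 0 := by
        rw [h3, map_add, hT.2 _ (C.sub_P_mem hq hv), add_zero]
        exact P_I C hq (h _ (C.V1_le (C.P hq v).2))
      rw [h4, Submodule.coe_zero]⟩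
  have h3 := Submodule.add_mem_sup h1 h2
  rwa [sub_add_cancel] at h3

end gen

section cfg

variable {L : Type u} {V : Type v} {J : Type w} [Field L] [AddCommGroup V] [Module L V]
  [FiniteDimensional L V] [Fintype J] [DecidableEq J] {𝒟 : Cfg L V J}

omit [FiniteDimensional L V] [DecidableEq J] in
theorem fam_add (t : J → V) (T T' : Fin 3 → End L V) :
    fam 𝒟 t (T + T') = fam 𝒟 t T + fam 𝒟 t T' := rfl

omit [FiniteDimensional L V] [DecidableEq J] in
theorem fam_smul (t : J → V) (c : L) (T : Fin 3 → End L V) :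
    fam 𝒟 t (c • T) = c • fam 𝒟 t T := rfl

omit [FiniteDimensional L V] [DecidableEq J] in
theorem fam_sub (t : J → V) (T T' : Fin 3 → End L V) :
    fam 𝒟 t (T - T') = fam 𝒟 t T - fam 𝒟 t T' := rfl

omit [FiniteDimensional L V] [DecidableEq J] in
theorem fam_zero (t : J → V) : fam 𝒟 t (0 : Fin 3 → End L V) = 0 := rfl

omit [FiniteDimensional L V] [DecidableEq J] in
theorem fam_sum (t : J → V) (T : Fin 3 → End L V) :
    fam 𝒟 t T = ∑ a, fam 𝒟 t (Pi.single a (T a)) := by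
  have h1 : T = ∑ a, Pi.single a (T a) := (Finset.univ_sum_single T).symm
  have h2 : ∀ (s : Finset (Fin 3)) (f : Fin 3 → Fin 3 → End L V),
      fam 𝒟 t (∑ a ∈ s, f a) = ∑ a ∈ s, fam 𝒟 t (f a) := by
    intro s f
    induction s using Finset.induction_on with
    | empty => rw [Finset.sum_empty, Finset.sum_empty, fam_zero]
    | insert a s ha ih => rw [Finset.sum_insert ha, Finset.sum_insert ha, fam_add, ih]
  conv_lhs => rw [h1]
  exact h2 _ _

variable {t t' : J → V} {C : Core 𝒟.q (Res 𝒟 t)}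

theorem ext0_Ten (hG : 𝒟.Good) (h : End L C.V1) : ext0 hG C h ∈ Ten 𝒟.q C.W C.W :=
  ⟨fun v => C.V1_le (h (C.P hG.form v)).2, fun v hv => by
    rw [ext0_apply, C.P_eq_zero hG.form hv, map_zero, Submodule.coe_zero]⟩

theorem P_ext0' (hG : 𝒟.Good) (h : End L C.V1) (v : V) :
    C.P hG.form (ext0 hG C h v) = h (C.P hG.form v) := by
  rw [ext0_apply, C.P_coe]

/-- **The subspaces `HHI s` of `End V₁`.** -/
noncomputable def HHI (hG : 𝒟.Good) (u : J → L) {t : J → V} (C : Core 𝒟.q (Res 𝒟 t))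
    (s : Fin 3) : Submodule L (End L C.V1) where
  carrier := {h | fam 𝒟 t (Pi.single s (ext0 hG C h)) ∈ WF 𝒟 t C.W C.I u}
  zero_mem' := by
    have e : ext0 hG C (0 : End L C.V1) = 0 := rfl
    show fam 𝒟 t (Pi.single s (ext0 hG C 0)) ∈ WF 𝒟 t C.W C.I u
    rw [e, Pi.single_zero, fam_zero]
    exact zero_mem _
  add_mem' := by
    intro h h' hh hh'
    have e : ext0 hG C (h + h') = ext0 hG C h + ext0 hG C h' := rfl
    show fam 𝒟 t (Pi.single s (ext0 hG C (h + h'))) ∈ WF 𝒟 t C.W C.I u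
    rw [e, Pi.single_add, fam_add]
    exact add_mem hh hh'
  smul_mem' := by
    intro c h hh
    have e : ext0 hG C (c • h) = c • ext0 hG C h := rfl
    show fam 𝒟 t (Pi.single s (ext0 hG C (c • h))) ∈ WF 𝒟 t C.W C.I u
    rw [e, Pi.single_smul, fam_smul]
    exact Submodule.smul_mem _ c hh

theorem mem_HHI {hG : 𝒟.Good} {u : J → L} {s : Fin 3} {h : End L C.V1} :
    h ∈ HHI hG u C s ↔ fam 𝒟 t (Pi.single s (ext0 hG C h)) ∈ WF 𝒟 t C.W C.I u := Iff.rfl

/-- every lift may be used -/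
theorem mem_HHI_of {hG : 𝒟.Good} {u : J → L} (hC0 : RowC0 𝒟 u t C.W C.I) {s : Fin 3}
    {h : End L C.V1} {T : End L V} (hT : T ∈ Ten 𝒟.q C.W C.W)
    (hTh : ∀ w ∈ C.W, C.P hG.form (T w) = h (C.P hG.form w)) :
    fam 𝒟 t (Pi.single s T) ∈ WF 𝒟 t C.W C.I u ↔ h ∈ HHI hG u C s := by
  have h1 : T - ext0 hG C h ∈ Ten 𝒟.q C.I C.W ⊔ Ten 𝒟.q C.W C.I := by
    refine Ten_of_rad C hG.form (sub_mem hT (ext0_Ten hG h)) fun w hw => ?_
    refine mem_I_of C hG.form (sub_mem (hT.1 w) ((ext0_Ten hG h).1 w)) ?_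
    rw [LinearMap.sub_apply, map_sub, hTh w hw, P_ext0', sub_self]
  have h2 := hC0 s _ h1
  rw [Pi.single_sub, fam_sub] at h2
  rw [mem_HHI]
  constructor
  · intro h3
    have h4 := sub_mem h3 h2
    rwa [sub_sub_cancel] at h4
  · intro h3
    have h4 := add_mem h2 h3
    rwa [sub_add_cancel] at h4

variable {hG : 𝒟.Good} {D : End L C.V1} {Dh Da : End L V}

/-- tensors only see the classes modulo `W^⊥` -/
theorem Ten_apply_t' (h : DHat hG t' C D Dh) (hDa : IsAdj 𝒟.q Da Dh) {T : End L V}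
    (hT : T ∈ Ten 𝒟.q C.W C.W) (x : L) (l : J) :
    T ((t + x • t') l) = (T * (1 + x • Da)) (t l) ∧
      T (𝒟.om (t + x • t') l) = (T * (1 + x • Da)) (𝒟.om t l) := by
  have hq := hG.form
  have key : ∀ y z : V, (∀ w ∈ C.W, 𝒟.q y w = 𝒟.q z (Dh w)) → T y = T (Da z) := by
    intro y z hyz
    have h1 : y - Da z ∈ perp 𝒟.q C.W := fun w hw => by
      rw [map_sub, LinearMap.sub_apply, hyz w hw, hDa, sub_self]
    have h2 := hT.2 _ h1
    rwa [map_sub, sub_eq_zero] at h2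
  constructor
  · have h1 := key (t' l) (t l) fun w hw => h.rel w hw l
    rw [Pi.add_apply, Pi.smul_apply, map_add, map_smul, h1, Module.End.mul_apply,
      LinearMap.add_apply, LinearMap.smul_apply, Module.End.one_apply, map_add, map_smul]
  · have h1 := key (𝒟.om t' l) (𝒟.om t l) fun w hw => by
      rw [Cfg.om, Cfg.om, map_sum, map_sum, LinearMap.sum_apply, LinearMap.sum_apply]
      refine Finset.sum_congr rfl fun k _ => ?_
      rw [map_smul, map_smul, LinearMap.smul_apply, LinearMap.smul_apply, h.rel w hw]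
    rw [H922.om_add, H922.om_smul, map_add, map_smul, h1, Module.End.mul_apply,
      LinearMap.add_apply, LinearMap.smul_apply, Module.End.one_apply, map_add, map_smul]

/-- **Change of the base.** -/
theorem fam_base (h : DHat hG t' C D Dh) (hDa : IsAdj 𝒟.q Da Dh) {T : Fin 3 → End L V}
    (hT : ∀ a, T a ∈ Ten 𝒟.q C.W C.W) (x : L) :
    fam 𝒟 (t + x • t') T = fam 𝒟 t (fun a => T a * (1 + x • Da)) := by
  refine Prod.ext ?_ ?_
  · funext l
    exact (Ten_apply_t' h hDa (hT _) x l).1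
  · funext l
    exact (Ten_apply_t' h hDa (hT _) x l).2

theorem adj1 (hDa : IsAdj 𝒟.q Da Dh) (x : L) : IsAdj 𝒟.q (1 + x • Da) (1 + x • Dh) := by
  intro v w
  rw [LinearMap.add_apply, LinearMap.add_apply, map_add, map_add, LinearMap.add_apply,
    LinearMap.smul_apply, LinearMap.smul_apply, map_smul, map_smul, LinearMap.smul_apply, hDa]
  rfl

/-- the adjoint preserves `W^⊥` -/
theorem adj_perp (h : DHat hG t' C D Dh) (hDa : IsAdj 𝒟.q Da Dh) (x : L) {v : V}
    (hv : v ∈ perp 𝒟.q C.W) : (1 + x • Da) v ∈ perp 𝒟.q C.W := fun w hw => by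
  rw [adj1 hDa x, hv _ (h.mem1 x hw)]

theorem Ten_base (h : DHat hG t' C D Dh) (hDa : IsAdj 𝒟.q Da Dh) {T : End L V}
    (hT : T ∈ Ten 𝒟.q C.W C.W) (x : L) : T * (1 + x • Da) ∈ Ten 𝒟.q C.W C.W :=
  ⟨fun v => hT.1 _, fun v hv => by
    rw [Module.End.mul_apply]; exact hT.2 _ (adj_perp h hDa x hv)⟩

/-- the adjoint on the core -/
theorem P_adj (h : DHat hG t' C D Dh) (hDa : IsAdj 𝒟.q Da Dh) (hDs : IsSA C.q1 D) (x : L) {w : V}
    (hw : w ∈ perp 𝒟.q C.I) :
    C.P hG.form ((1 + x • Da) w) = (1 + x • D) (C.P hG.form w) := by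
  have hgs : IsSA C.q1 (1 + x • D) := by
    intro u w
    rw [LinearMap.add_apply, LinearMap.add_apply, map_add, map_add, LinearMap.add_apply,
      LinearMap.smul_apply, LinearMap.smul_apply, map_smul, map_smul, LinearMap.smul_apply, hDs]
    rfl
  apply (C.isForm hG.form).ext
  intro v
  have hv := C.V1_le v.2
  have h1 := C.sub_P_mem_I hG.form (h.mem1 x hv)
  have h2 := hw _ h1
  rw [map_sub, sub_eq_zero, h.core1 x hv, C.P_coe] at h2
  rw [C.q_P, adj1 hDa x, h2, hgs, C.q_P]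

theorem adj_perpI (h : DHat hG t' C D Dh) (hDa : IsAdj 𝒟.q Da Dh) (x : L) {v : V}
    (hv : v ∈ perp 𝒟.q C.I) : (1 + x • Da) v ∈ perp 𝒟.q C.I := fun i hi => by
  rw [adj1 hDa x]
  apply hv
  apply mem_I_of C hG.form (h.mem1 x (C.I_le hi))
  rw [h.core1 x (C.I_le hi), P_I C hG.form hi, map_zero]

/-- a tensor and the projection -/
theorem T_P (C : Core 𝒟.q (Res 𝒟 t)) (hG : 𝒟.Good) {T : End L V} (hT : T ∈ Ten 𝒟.q C.W C.W)
    {v : V} (hv : v ∈ perp 𝒟.q C.I) : T v = T (C.P hG.form v : V) := by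
  have h1 := hT.2 _ (C.sub_P_mem hG.form hv)
  rwa [map_sub, sub_eq_zero] at h1

/-- **The base change on the arm `s`.** -/
theorem single_base (h : DHat hG t' C D Dh) (hDs : IsSA C.q1 D) {u : J → L}
    (hC0 : RowC0 𝒟 u t C.W C.I) (x : L) {s : Fin 3} {k : End L C.V1} {T : End L V}
    (hT : T ∈ Ten 𝒟.q C.W C.W) (hTh : ∀ w ∈ C.W, C.P hG.form (T w) = k (C.P hG.form w)) :
    fam 𝒟 (t + x • t') (Pi.single s T) ∈ WF 𝒟 t C.W C.I u ↔ k * (1 + x • D) ∈ HHI hG u C s := by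
  obtain ⟨Da, hDa⟩ := exists_adjI hG.form Dh
  have hT' : ∀ a, (Pi.single s T : Fin 3 → End L V) a ∈ Ten 𝒟.q C.W C.W := by
    intro a
    by_cases ha : a = s
    · subst ha; rwa [Pi.single_eq_same]
    · rw [Pi.single_eq_of_ne ha]; exact zero_mem _
  rw [fam_base h hDa hT' x]
  have e1 : (fun a => (Pi.single s T : Fin 3 → End L V) a * (1 + x • Da)) =
      Pi.single s (T * (1 + x • Da)) := by
    funext a
    by_cases ha : a = s
    · subst ha; rw [Pi.single_eq_same, Pi.single_eq_same]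
    · rw [Pi.single_eq_of_ne ha, Pi.single_eq_of_ne ha, zero_mul]
  rw [e1]
  refine mem_HHI_of hC0 (Ten_base h hDa hT x) fun w hw => ?_
  have hwI := C.W_le_perp hG.form hw
  rw [Module.End.mul_apply, Module.End.mul_apply, T_P C hG hT (adj_perpI h hDa x hwI),
    hTh _ (C.V1_le (C.P hG.form _).2), C.P_coe, P_adj h hDa hDs x hwI]

/-- `ext0 β` is self adjoint -/
theorem ext0_SA (hG : 𝒟.Good) {β : End L C.V1} (hβ : IsSA C.q1 β) :
    IsSA 𝒟.q (ext0 hG C β) := by
  have hq := hG.form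
  have e : ∀ (a : C.V1) (v : V), 𝒟.q (a : V) v = C.q1 a (C.P hq v) := fun a v => by
    rw [hq.symm, ← C.q_P hq, (C.isForm hq).symm]
  intro u v
  rw [ext0_apply, ext0_apply, e, hq.symm u, e, hβ, (C.isForm hq).symm]

/-- the residues of `t + x t'` and the projection -/
theorem P_Resx' (h : DHat hG t' C D Dh) (hrel : Rel 𝒟 t t')
    (hDc : ∀ s, D * C.S1 hG.form s = C.S1 hG.form s * D) (x : L) (s : Fin 3) {w : V}
    (hw : w ∈ C.W) : C.P hG.form (Res 𝒟 (t + x • t') s w) =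
      ((1 + x • D) ^ 2 * C.S1 hG.form s : End L C.V1) (C.P hG.form w) := by
  have hSA : ∀ s, IsSA 𝒟.q (Res 𝒟 t s) := Sop_SA 𝒟.arm hG.form (Tt L t) hG.skew
  have h1 := h.mem1 x hw
  rw [h.res_tx hrel x s hw, P_S_W C hG.form hSA s (h.mem1 x h1), h.core1 x h1, h.core1 x hw,
    comm2 (hDc s), pow_two]
  rfl

/-- **(A)** for a glued core. -/
theorem mem_HHI_comm (h2 : (2 : L) ≠ 0) (h : DHat hG t' C D Dh) (hrel : Rel 𝒟 t t')
    (hDs : IsSA C.q1 D) (hDc : ∀ s, D * C.S1 hG.form s = C.S1 hG.form s * D) {u : J → L}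
    (hC0 : RowC0 𝒟 u t C.W C.I) {x : L} (hx : GoodI hG t' C D Dh x)
    (hS : RowS 𝒟 u t t' C.W C.I 1 x) (s : Fin 3) {β : End L C.V1} (hβ : IsSA C.q1 β)
    (hc : β * ((1 + x • D) ^ 2 * C.S1 hG.form s) = (1 + x • D) ^ 2 * C.S1 hG.form s * β) :
    β * (1 + x • D) ∈ HHI hG u C s := by
  have hq := hG.form
  have htm : tm t t' 1 x = t + x • t' := by rw [tm, one_smul]
  rw [RowS, htm] at hS
  have hSAx : ∀ s, IsSA 𝒟.q (Res 𝒟 (t + x • t') s) :=
    Sop_SA 𝒟.arm hq (Tt L (t + x • t')) hG.skew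
  have hSW : ∀ a, ∀ w ∈ C.W, Res 𝒟 (t + x • t') a w ∈ C.W := fun a w hw => by
    rw [h.res_tx hrel x a hw]
    exact C.map_W (h.mem1 x (h.mem1 x hw))
  have hSp : ∀ a, ∀ v ∈ perp 𝒟.q C.W, Res 𝒟 (t + x • t') a v ∈ perp 𝒟.q C.W :=
    fun a v hv w hw => by rw [hSAx, hv _ (hSW a w hw)]
  have hSI : ∀ a, ∀ i ∈ C.I, Res 𝒟 (t + x • t') a i ∈ C.I := fun a i hi =>
    ⟨hSW a i hi.1, hSp a i hi.2⟩
  set β' : End L V := ext0 hG C β with hβ'
  have hβT : β' ∈ Ten 𝒟.q C.W C.W := ext0_Ten hG β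
  have hβS : IsSA 𝒟.q β' := ext0_SA hG hβ
  -- the commutator
  have hcomm : ∀ w ∈ C.W, β' (Res 𝒟 (t + x • t') s w) - Res 𝒟 (t + x • t') s (β' w) ∈ C.I := by
    intro w hw
    refine mem_I_of C hq (sub_mem (hβT.1 _) (hSW s _ (hβT.1 _))) ?_
    rw [map_sub, P_ext0', P_Resx' h hrel hDc x s hw, P_Resx' h hrel hDc x s (hβT.1 w), P_ext0',
      ← Module.End.mul_apply, ← Module.End.mul_apply _ β, hc, sub_self]
  have hE : H55.TI (coreI h hrel hx.onto hx.nil) (-(1 : L))
      (β' * Res 𝒟 (t + x • t') s - Res 𝒟 (t + x • t') s * β') := by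
    refine ⟨fun v => sub_mem (hβT.1 _) (hSW s _ (hβT.1 _)), fun v hv => ?_,
      fun w hw => hcomm w hw, fun v w => ?_⟩
    · rw [LinearMap.sub_apply, Module.End.mul_apply, Module.End.mul_apply,
        hβT.2 _ (hSp s v hv), hβT.2 v hv, map_zero, sub_zero]
    · rw [LinearMap.sub_apply, LinearMap.sub_apply, map_sub, map_sub, LinearMap.sub_apply,
        Module.End.mul_apply, Module.End.mul_apply, Module.End.mul_apply, Module.End.mul_apply,
        hβS, hSAx, hSAx, hβS]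
      ring
  obtain ⟨b, hb, hbs⟩ := H55.solv hq h2 hSAx (coreI h hrel hx.onto hx.nil) (one_mul (1 : L)) hE
  have hbT : ∀ a, b a ∈ Ten 𝒟.q C.W C.W := fun a => ⟨(hb a).mem, (hb a).kill⟩
  have hbI : ∀ a, ∀ w ∈ C.W, b a w ∈ C.I := fun a => (hb a).rad
  have hfam := hS (fun a => b a + (Pi.single s β' : Fin 3 → End L V) a) (fun a => ?_)
    (fun a => ?_) (fun a w hw => ?_) ?_
  rotate_left
  · by_cases ha : a = s
    · subst ha; rw [Pi.single_eq_same]; exact add_mem (hbT a) hβT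
    · rw [Pi.single_eq_of_ne ha, add_zero]; exact hbT a
  · have hba : IsSA 𝒟.q (b a) := fun v w => by rw [(hb a).adj, one_mul]
    by_cases ha : a = s
    · subst ha; rw [Pi.single_eq_same]; exact sa_add hba hβS
    · rw [Pi.single_eq_of_ne ha, add_zero]; exact hba
  · have h3 : b a (Res 𝒟 (t + x • t') a w) - Res 𝒟 (t + x • t') a (b a w) ∈ C.I :=
      sub_mem (hbI a _ (hSW a w hw)) (hSI a _ (hbI a w hw))
    by_cases ha : a = s
    · subst ha
      rw [Pi.single_eq_same]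
      have h4 := add_mem h3 (hcomm w hw)
      convert h4 using 1
      simp only [LinearMap.add_apply, map_add]
      abel
    · rw [Pi.single_eq_of_ne ha, add_zero]; exact h3
  · have e1 : ∀ a, Res 𝒟 (t + x • t') a * (b a + (Pi.single s β' : Fin 3 → End L V) a) -
        (b a + (Pi.single s β' : Fin 3 → End L V) a) * Res 𝒟 (t + x • t') a =
        (Res 𝒟 (t + x • t') a * b a - b a * Res 𝒟 (t + x • t') a) +
        (if a = s then (Res 𝒟 (t + x • t') s * β' - β' * Res 𝒟 (t + x • t') s) else 0) := by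
      intro a
      by_cases ha : a = s
      · subst ha
        rw [Pi.single_eq_same, if_pos rfl]
        noncomm_ring
      · rw [Pi.single_eq_of_ne ha, if_neg ha, add_zero, add_zero]
    rw [Finset.sum_congr rfl fun a _ => e1 a, Finset.sum_add_distrib, hbs,
      Finset.sum_ite_eq' Finset.univ s, if_pos (Finset.mem_univ s)]
    abel
  -- the corrections
  have e2 : (fun a => b a + (Pi.single s β' : Fin 3 → End L V) a) = b + Pi.single s β' := rfl
  rw [e2, fam_add] at hfam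
  have h5 : fam 𝒟 (t + x • t') b ∈ WF 𝒟 t C.W C.I u := by
    rw [fam_sum]
    refine Submodule.sum_mem _ fun a _ => ?_
    refine (single_base h hDs hC0 x (k := 0) (hbT a) fun w hw => ?_).mpr ?_
    · rw [P_I C hq (hbI a w hw), LinearMap.zero_apply]
    · rw [zero_mul]; exact zero_mem _
  have h6 := sub_mem hfam h5
  rw [add_sub_cancel_left] at h6
  exact (single_base h hDs hC0 x hβT fun w _ => P_ext0' hG β w).mp h6

/-- the family `h t`, and the end -/
theorem HHI_end (h : DHat hG t' C D Dh) (hDs : IsSA C.q1 D) {u : J → L} (htu : t ∈ Uu V u)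
    (hK : ∀ k ∈ Ku 𝒟 u, ∃ a b : L, k = a • t + b • t') {k : End L C.V1}
    (hh : ∀ s, k ∈ HHI hG u C s) : IsSA C.q1 k := by
  have hq := hG.form
  choose r hr0 hr1 hr2 using fun s => (mem_WF 𝒟 t C.W C.I).mp (mem_HHI.mp (hh s))
  choose Γ hΓ using hr1
  set T : End L V := ext0 hG C k with hT
  have hTT : T ∈ Ten 𝒟.q C.W C.W := ext0_Ten hG k
  set z : J → V := fun l => T (t l) - ∑ s, r s l with hz
  have homz : ∀ l, 𝒟.om z l = T (𝒟.om t l) - ∑ s, 𝒟.om (r s) l := by
    intro l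
    rw [om_lin]
    unfold Cfg.om
    rw [Finset.sum_comm, ← Finset.sum_sub_distrib]
    refine Finset.sum_congr rfl fun j _ => ?_
    rw [← Finset.smul_sum, ← smul_sub]
  have hzU : z ∈ Uu V u := by
    have e1 : z = (fun l => T (t l)) - ∑ s, r s := by
      funext l
      rw [Pi.sub_apply, Finset.sum_apply]
    rw [e1]
    exact sub_mem (map_Uu htu T) (Submodule.sum_mem _ fun s _ => hr0 s)
  have hN : ∀ s l, (if 𝒟.arm l = s then T (t l) else 0) - r s l ∈ 𝒟.C l ∧
      (if 𝒟.arm l = s then T (𝒟.om t l) else 0) - 𝒟.om (r s) l ∈ perp 𝒟.q (𝒟.C l) := by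
    intro s l
    have h1 : (Pi.single s T : Fin 3 → End L V) (𝒟.arm l) (t l) - r s l ∈ 𝒟.C l ∧
        (Pi.single s T : Fin 3 → End L V) (𝒟.arm l) (𝒟.om t l) - 𝒟.om (r s) l ∈
          perp 𝒟.q (𝒟.C l) := hr2 s l
    by_cases hl : 𝒟.arm l = s
    · rw [if_pos hl, if_pos hl]
      have e : (Pi.single s T : Fin 3 → End L V) (𝒟.arm l) = T := by
        rw [hl, Pi.single_eq_same]
      rw [e] at h1
      exact h1
    · rw [if_neg hl, if_neg hl]
      have e : (Pi.single s T : Fin 3 → End L V) (𝒟.arm l) = 0 := by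
        rw [Pi.single_eq_of_ne hl]
      rw [e] at h1
      exact h1
  have hzK : z ∈ Ku 𝒟 u := by
    refine ⟨⟨fun l => ?_, fun l => ?_⟩, hzU⟩
    · have h1 := Submodule.sum_mem (𝒟.C l) fun s (_ : s ∈ Finset.univ) => (hN s l).1
      rw [Finset.sum_sub_distrib, Finset.sum_ite_eq, if_pos (Finset.mem_univ _)] at h1
      exact h1
    · have h1 := Submodule.sum_mem (perp 𝒟.q (𝒟.C l)) fun s (_ : s ∈ Finset.univ) =>
        (hN s l).2
      rw [Finset.sum_sub_distrib, Finset.sum_ite_eq, if_pos (Finset.mem_univ _)] at h1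
      show 𝒟.om z l ∈ _
      rw [homz]
      exact h1
  obtain ⟨a, b, hab⟩ := hK z hzK
  obtain ⟨T', hT'⟩ := exists_adjI hq T
  -- on `W`, `T' = ∑ Γ_s + a + b Dh` up to the radical
  have key : ∀ w ∈ C.W, C.P hq (T' w) = (∑ s, C.P hq (Γ s w)) + a • C.P hq w +
      b • D (C.P hq w) := by
    intro w hw
    have hT'w : T' w ∈ C.W := by
      refine H55.perp_perp hq fun v hv => ?_
      rw [hT', hTT.2 v hv, map_zero]
    have hmem : T' w - (∑ s, Γ s w) - (a • w + b • Dh w) ∈ C.W :=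
      sub_mem (sub_mem hT'w (Submodule.sum_mem _ fun s _ => (hΓ s).mapW w hw))
        (add_mem (Submodule.smul_mem _ _ hw) (Submodule.smul_mem _ _ (h.mem w hw)))
    have hort : ∀ l, 𝒟.q (t l) (T' w - (∑ s, Γ s w) - (a • w + b • Dh w)) = 0 := by
      intro l
      have e1 : 𝒟.q (z l) w = 𝒟.q (t l) (T' w) - ∑ s, 𝒟.q (t l) (Γ s w) := by
        rw [hz, map_sub, LinearMap.sub_apply, map_sum, LinearMap.sum_apply]
        congr 1
        · rw [hq.symm, ← hT', hq.symm]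
        · refine Finset.sum_congr rfl fun s _ => ?_
          rw [hq.symm, (hΓ s).one w hw, hq.symm]
      have e2 : 𝒟.q (z l) w = a * 𝒟.q (t l) w + b * 𝒟.q (t l) (Dh w) := by
        rw [hab, Pi.add_apply, Pi.smul_apply, Pi.smul_apply, map_add, LinearMap.add_apply,
          map_smul, map_smul, LinearMap.smul_apply, LinearMap.smul_apply, h.rel w hw,
          smul_eq_mul, smul_eq_mul]
      rw [map_sub, map_sub, map_sum, map_add, map_smul, map_smul, ← e1, e2, smul_eq_mul,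
        smul_eq_mul, sub_self]
    have hperp : T' w - (∑ s, Γ s w) - (a • w + b • Dh w) ∈ perp 𝒟.q C.W := by
      intro y hy
      obtain ⟨c, hc⟩ := W_le_range C hy
      rw [← hc, hq.symm, Tt_apply, map_sum, LinearMap.sum_apply]
      refine Finset.sum_eq_zero fun l _ => ?_
      rw [map_smul, LinearMap.smul_apply, hort, smul_zero]
    have h3 := C.P_eq_zero hq hperp
    rw [map_sub, map_sub, map_sum, map_add, map_smul, map_smul, h.core w hw, sub_eq_zero,
      sub_eq_iff_eq_add] at h3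
    rw [h3]
    abel
  -- the conclusion
  have hΓM : ∀ s, ∀ v v' : C.V1, C.q1 (C.P hq (Γ s v)) v' = C.q1 v (C.P hq (Γ s v')) := by
    intro s v v'
    rw [C.q_P, (hΓ s).sa _ (C.V1_le v.2) _ (C.V1_le v'.2), (C.isForm hq).symm, C.q_P, hq.symm]
  intro v v'
  have e1 : C.q1 (k v) v' = C.q1 v (C.P hq (T' v')) := by
    rw [(C.isForm hq).symm v, C.q_P, hT', hT, hq.symm, ext0_apply, C.P_coe]
    rfl
  have e2 : C.q1 (C.P hq (T' v)) v' = C.q1 v (k v') := by
    rw [C.q_P, hT', hT, ext0_apply, C.P_coe]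
    rfl
  rw [e1, ← e2, key _ (C.V1_le v.2), key _ (C.V1_le v'.2)]
  simp only [map_add, LinearMap.add_apply, map_sum, LinearMap.sum_apply, map_smul,
    LinearMap.smul_apply, C.P_coe]
  rw [hDs v v', Finset.sum_congr rfl fun s _ => hΓM s v v']

end cfg

end Vale.Agent.P182.H89
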