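import Vale.Agent.P182.H55.NullU

/-!
# The second base `t + x t'` for a glued core

`Dh` is a lift to `W` of the endomorphism `D` of `V₁`, with `t'* = t* Dh` on `W`.  The residues of
`t + x t'` on `W` are `S_a (1 + x Dh)²`, exactly in `V`.
-/

namespace Vale.Agent.P182.H89

open Module Matrix Filter Vale.Agent.P182.H533 Vale.Agent.P182.B1 Vale.Agent.P182.H578
  Vale.Agent.P182.H922 Vale.Agent.P182.H588

universe u v w

section alg

variable {L E : Type*} [Field L] [AddCommGroup E] [Module L E] [FiniteDimensional L E]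

/-- the operators `(1 + x D)² S_s` are of the same null type -/
theorem nul_sq {q : E →ₗ[L] E →ₗ[L] L} {S : Fin 3 → End L E} {D : End L E} (hDs : IsSA q D)
    (hDc : ∀ s, D * S s = S s * D) {x : L} (hu : IsUnit (1 + x • D)) {p : Fin 3 → ℕ}
    (hp : Nul q S p) : Nul q (fun s => (1 + x • D) ^ 2 * S s) p := by
  have hc1 : ∀ s, (1 + x • D) * S s = S s * (1 + x • D) := by
    intro s
    rw [add_mul, mul_add, one_mul, mul_one, smul_mul_assoc, mul_smul_comm, hDc]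
  have hcs : ∀ s, (1 + x • D) ^ 2 * S s = S s * (1 + x • D) ^ 2 := by
    intro s
    rw [pow_two, mul_assoc, hc1, ← mul_assoc, hc1, mul_assoc]
  obtain ⟨g, hg⟩ := (hu.pow 2).exists_left_inv
  obtain ⟨g', hg'⟩ := (hu.pow 2).exists_right_inv
  have hker : ∀ s, LinearMap.ker ((1 + x • D) ^ 2 * S s) = LinearMap.ker (S s) := by
    intro s
    ext v
    rw [LinearMap.mem_ker, LinearMap.mem_ker, Module.End.mul_apply]
    constructor
    · intro h
      have h1 : (g * (1 + x • D) ^ 2 : End L E) (S s v) = 0 := by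
        rw [Module.End.mul_apply, h, map_zero]
      rw [hg] at h1
      exact h1
    · intro h
      rw [h, map_zero]
  have hs1 : IsSA q (1 + x • D) := by
    intro u w
    rw [LinearMap.add_apply, LinearMap.add_apply, map_add, map_add, LinearMap.add_apply,
      LinearMap.smul_apply, LinearMap.smul_apply, map_smul, map_smul, LinearMap.smul_apply, hDs]
    rfl
  refine ⟨hp.form, fun s u v => ?_, ?_, fun s => ?_, fun s => ?_, ?_, ?_⟩
  · have h2 : ∀ a b, q (((1 + x • D) ^ 2 : End L E) a) b = q a (((1 + x • D) ^ 2 : End L E) b) := by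
      intro a b
      rw [pow_two, Module.End.mul_apply, Module.End.mul_apply, hs1, hs1]
    have h3 : ((1 + x • D) ^ 2 * S s : End L E) v = S s (((1 + x • D) ^ 2 : End L E) v) := by
      rw [hcs, Module.End.mul_apply]
    show q (((1 + x • D) ^ 2 * S s : End L E) u) v = q u (((1 + x • D) ^ 2 * S s : End L E) v)
    rw [h3, Module.End.mul_apply, h2, hp.sa s]
  · rw [← Finset.mul_sum, hp.sum, mul_zero]
  · have h1 : Commute ((1 + x • D) ^ 2) (S s) := hcs s
    show ((1 + x • D) ^ 2 * S s) ^ p s = 0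
    rw [h1.mul_pow, hp.pow, mul_zero]
  · show _ = p s * finrank L (LinearMap.ker ((1 + x • D) ^ 2 * S s))
    rw [hker]
    exact hp.rk s
  · rw [← hp.tot]
    exact Finset.sum_congr rfl fun s _ => by rw [hker]
  · rw [eq_top_iff, ← hp.span]
    refine iSup_mono fun s => ?_
    rintro _ ⟨v, rfl⟩
    refine ⟨g' v, ?_⟩
    show ((1 + x • D) ^ 2 * S s : End L E) (g' v) = _
    rw [hcs, Module.End.mul_apply, ← Module.End.mul_apply ((1 + x • D) ^ 2 : End L E), hg']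
    rfl

end alg

section base

variable {L : Type u} {V : Type v} {J : Type w} [Field L] [AddCommGroup V] [Module L V]
  [FiniteDimensional L V] [Fintype J] [DecidableEq J] {𝒟 : Cfg L V J}

/-- `Dh` is a lift of `D` to `W`, which expresses `t'` by `t` -/
structure DHat (hG : 𝒟.Good) {t : J → V} (t' : J → V) (C : Core 𝒟.q (Res 𝒟 t))
    (D : End L C.V1) (Dh : End L V) : Prop where
  mem : ∀ w ∈ C.W, Dh w ∈ C.W
  core : ∀ w ∈ C.W, C.P hG.form (Dh w) = D (C.P hG.form w)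
  rel : ∀ w ∈ C.W, ∀ l, 𝒟.q (t' l) w = 𝒟.q (t l) (Dh w)

variable {hG : 𝒟.Good} {t t' : J → V} {C : Core 𝒟.q (Res 𝒟 t)} {D : End L C.V1} {Dh : End L V}

namespace DHat

variable (h : DHat hG t' C D Dh)
include h

theorem mem1 (x : L) {w : V} (hw : w ∈ C.W) : (1 + x • Dh) w ∈ C.W := by
  rw [LinearMap.add_apply, LinearMap.smul_apply, Module.End.one_apply]
  exact add_mem hw (Submodule.smul_mem _ _ (h.mem w hw))

theorem core1 (x : L) {w : V} (hw : w ∈ C.W) :
    C.P hG.form ((1 + x • Dh) w) = (1 + x • D) (C.P hG.form w) := by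
  rw [LinearMap.add_apply, LinearMap.smul_apply, Module.End.one_apply, map_add, map_smul,
    h.core w hw]
  rfl

theorem rel1 (x : L) {w : V} (hw : w ∈ C.W) (l : J) :
    𝒟.q ((t + x • t') l) w = 𝒟.q (t l) ((1 + x • Dh) w) := by
  rw [Pi.add_apply, Pi.smul_apply, map_add, map_smul, LinearMap.add_apply, LinearMap.smul_apply,
    h.rel w hw, LinearMap.add_apply, LinearMap.smul_apply, Module.End.one_apply, map_add, map_smul]

theorem ad_tx (x : L) {w : V} (hw : w ∈ C.W) :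
    ad 𝒟.q (Tt L (t + x • t')) w = ad 𝒟.q (Tt L t) ((1 + x • Dh) w) := by
  funext j
  rw [ad_apply, ad_apply, Tt_single, Tt_single, h.rel1 x hw]

theorem opr_right (x : L) (r : J → V) (a : Fin 3) {w : V} (hw : w ∈ C.W) :
    opr 𝒟.q (Tt L r) (Gm 𝒟.arm 𝒟.Ω a) (Tt L (t + x • t')) w =
      opr 𝒟.q (Tt L r) (Gm 𝒟.arm 𝒟.Ω a) (Tt L t) ((1 + x • Dh) w) := by
  rw [opr_apply, opr_apply, h.ad_tx x hw]

/-- **The residues of `t + x t'` on `W`.** -/
theorem res_tx (hrel : Rel 𝒟 t t') (x : L) (a : Fin 3) {w : V} (hw : w ∈ C.W) :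
    Res 𝒟 (t + x • t') a w = Res 𝒟 t a ((1 + x • Dh) ((1 + x • Dh) w)) := by
  have h1 := h.opr_right x (t + x • t') a hw
  have h2 := h.opr_right x t a (h.mem1 x hw)
  have h3 : opr 𝒟.q (Tt L (t + x • t')) (Gm 𝒟.arm 𝒟.Ω a) (Tt L t) =
      opr 𝒟.q (Tt L t) (Gm 𝒟.arm 𝒟.Ω a) (Tt L (t + x • t')) := by
    rw [Tt_add, Tt_smul, opr_add_left, opr_add_right, opr_smul_left, opr_smul_right,
      hrel.swap hG a]
  show opr 𝒟.q (Tt L (t + x • t')) (Gm 𝒟.arm 𝒟.Ω a) (Tt L (t + x • t')) w = _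
  rw [h1, h3, h2]
  rfl

theorem map_Wx (hrel : Rel 𝒟 t t') {x : L} (hon : ∀ w ∈ C.W, ∃ w' ∈ C.W, (1 + x • Dh) w' = w) :
    ⨆ s, C.W.map (Res 𝒟 (t + x • t') s) = C.W := by
  apply le_antisymm
  · refine iSup_le fun s => ?_
    rintro _ ⟨w, hw, rfl⟩
    rw [h.res_tx hrel x s hw]
    exact C.map_W (h.mem1 x (h.mem1 x hw))
  · conv_lhs => rw [← C.hW]
    refine iSup_mono fun s => ?_
    rintro _ ⟨w, hw, rfl⟩
    obtain ⟨w1, hw1, e1⟩ := hon w hw
    obtain ⟨w2, hw2, e2⟩ := hon w1 hw1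
    refine ⟨w2, hw2, ?_⟩
    rw [h.res_tx hrel x s hw2, e2, e1]

theorem W_le_words (hrel : Rel 𝒟 t t') {x : L}
    (hon : ∀ w ∈ C.W, ∃ w' ∈ C.W, (1 + x • Dh) w' = w) (n : ℕ) :
    C.W ≤ words (Res 𝒟 (t + x • t')) n := by
  have h1 := h.map_Wx hrel hon
  induction n with
  | zero => exact le_top
  | succ n ih =>
    rw [words_succ]
    conv_lhs => rw [← h1]
    exact iSup_mono fun s => Submodule.map_mono ih

/-- **nil**: by maximality, the stable image of `t + x t'` is `W`. -/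
theorem nil_of_max (hrel : Rel 𝒟 t t') {x : L}
    (hon : ∀ w ∈ C.W, ∃ w' ∈ C.W, (1 + x • Dh) w' = w)
    (hmax : ∀ C' : Core 𝒟.q (Res 𝒟 (t + x • t')), finrank L C'.V1 ≤ finrank L C.V1) :
    ∃ N, words (Res 𝒟 (t + x • t')) N ≤ C.W := by
  have hq := hG.form
  have hSA : ∀ s, IsSA 𝒟.q (Res 𝒟 (t + x • t') s) :=
    Sop_SA 𝒟.arm hq (Tt L (t + x • t')) hG.skew
  obtain ⟨C'⟩ := exists_core 𝒟.q (Res 𝒟 (t + x • t'))
  have hWW : C.W ≤ C'.W := by
    rw [C'.hN]
    exact h.W_le_words hrel hon _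
  have hV1 : ∀ v : C.V1, (v : V) ∈ C'.W := fun v => hWW (C.V1_le v.2)
  -- the projection `C.V1 → C'.V1`
  set g : C.V1 →ₗ[L] C'.V1 := C'.P hq ∘ₗ C.V1.subtype with hg
  have hginj : Function.Injective g := by
    rw [← LinearMap.ker_eq_bot, LinearMap.ker_eq_bot']
    intro v hv
    apply (C.isForm hq).nondeg
    intro w
    have h1 := C'.sub_P_mem_I hq (hV1 v)
    have h2 : C'.P hq (v : V) = 0 := hv
    rw [h2, Submodule.coe_zero, sub_zero] at h1
    exact h1.2 _ (hV1 w)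
  have hgsurj : Function.Surjective g := by
    have h1 : finrank L C.V1 = finrank L C'.V1 :=
      le_antisymm (LinearMap.finrank_le_finrank_of_injective hginj) (hmax C')
    exact (LinearMap.injective_iff_surjective_of_finrank_eq_finrank h1).mp hginj
  refine ⟨C'.N, ?_⟩
  rw [← C'.hN]
  refine H55.W_le_of hq hSA C' (fun s v hv => ?_) fun w hw => ?_
  · rw [h.res_tx hrel x s hv]
    exact C.map_W (h.mem1 x (h.mem1 x hv))
  · obtain ⟨v, hv⟩ := hgsurj (C'.P hq w)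
    have h1 := C'.sub_P_mem_I hq hw
    have h2 := C'.sub_P_mem_I hq (hV1 v)
    have h3 : C'.P hq (v : V) = C'.P hq w := hv
    have h4 : w - v ∈ perp 𝒟.q C'.W := by
      have h5 := Submodule.sub_mem _ h1 h2
      rw [h3, sub_sub_sub_cancel_right] at h5
      exact h5.2
    have h6 : (v : V) + (w - v) = w := by abel
    rw [← h6]
    exact Submodule.add_mem_sup (C.V1_le v.2) h4

end DHat

/-- good parameters of a glued core -/
structure GoodI (hG : 𝒟.Good) {t : J → V} (t' : J → V) (C : Core 𝒟.q (Res 𝒟 t)) (D : End L C.V1)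
    (Dh : End L V) (x : L) : Prop where
  unit : IsUnit (1 + x • D)
  onto : ∀ w ∈ C.W, ∃ w' ∈ C.W, (1 + x • Dh) w' = w
  nil : ∃ N, words (Res 𝒟 (t + x • t')) N ≤ C.W
  central : ∀ M : End L C.V1, IsSA C.q1 M →
    (∀ s, M * ((1 + x • D) ^ 2 * C.S1 hG.form s) = (1 + x • D) ^ 2 * C.S1 hG.form s * M) →
    M * D = D * M

/-- the core of `t + x t'` -/
noncomputable def coreI (h : DHat hG t' C D Dh) (hrel : Rel 𝒟 t t') {x : L}
    (hon : ∀ w ∈ C.W, ∃ w' ∈ C.W, (1 + x • Dh) w' = w)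
    (hn : ∃ N, words (Res 𝒟 (t + x • t')) N ≤ C.W) : Core 𝒟.q (Res 𝒟 (t + x • t')) where
  N := hn.choose
  W := C.W
  hN := le_antisymm (h.W_le_words hrel hon _) hn.choose_spec
  hW := h.map_Wx hrel hon
  V1 := C.V1
  sup := C.sup
  disj := C.disj

omit [FiniteDimensional L V] in
theorem comm1 {E : Type*} [AddCommGroup E] [Module L E] {D S : End L E} (hDc : D * S = S * D)
    (x : L) : (1 + x • D) * S = S * (1 + x • D) := by
  rw [add_mul, mul_add, one_mul, mul_one, smul_mul_assoc, mul_smul_comm, hDc]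

omit [FiniteDimensional L V] in
theorem comm2 {E : Type*} [AddCommGroup E] [Module L E] {D S : End L E} (hDc : D * S = S * D)
    (x : L) : (1 + x • D) ^ 2 * S = S * (1 + x • D) ^ 2 := by
  rw [pow_two, mul_assoc, comm1 hDc, ← mul_assoc, comm1 hDc, mul_assoc]

/-- **The residues of `t + x t'` on the core.** -/
theorem resI (h : DHat hG t' C D Dh) (hrel : Rel 𝒟 t t')
    (hDc : ∀ s, D * C.S1 hG.form s = C.S1 hG.form s * D) (x : L) (s : Fin 3) :
    C.res hG.form (Res 𝒟 (t + x • t') s) = (1 + x • D) ^ 2 * C.S1 hG.form s := by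
  have hq := hG.form
  have hSA : ∀ s, IsSA 𝒟.q (Res 𝒟 t s) := Sop_SA 𝒟.arm hq (Tt L t) hG.skew
  refine LinearMap.ext fun v => ?_
  have hv := C.V1_le v.2
  have h1 := h.mem1 x hv
  rw [C.res_apply, h.res_tx hrel x s hv, C.P_S hq hSA s (C.W_le_perp hq (h.mem1 x h1)),
    h.core1 x h1, h.core1 x hv, C.P_coe, comm2 (hDc s), pow_two]
  rfl

/-- the core of `t + x t'` has the same type -/
theorem nullI (h : DHat hG t' C D Dh) (hrel : Rel 𝒟 t t')
    (hDs : IsSA C.q1 D) (hDc : ∀ s, D * C.S1 hG.form s = C.S1 hG.form s * D) {x : L}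
    (hu : IsUnit (1 + x • D)) (hon : ∀ w ∈ C.W, ∃ w' ∈ C.W, (1 + x • Dh) w' = w)
    (hn : ∃ N, words (Res 𝒟 (t + x • t')) N ≤ C.W) (hN : NullCore C hG.form) :
    NullCore (coreI h hrel hon hn) hG.form := by
  obtain ⟨p, hp⟩ := H258.nul_core hG t C hN
  have h1 := nul_sq hDs hDc hu hp
  have h2 := resI h hrel hDc x
  show ∃ p : Fin 3 → ℕ, (∀ s, (C.res hG.form (Res 𝒟 (t + x • t') s)) ^ p s = 0) ∧
    (∀ s, finrank L C.V1 =
      p s * finrank L (LinearMap.ker (C.res hG.form (Res 𝒟 (t + x • t') s)))) ∧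
    ∑ s, finrank L (LinearMap.ker (C.res hG.form (Res 𝒟 (t + x • t') s))) = finrank L C.V1
  refine ⟨p, fun s => ?_, fun s => ?_, ?_⟩
  · rw [h2]; exact h1.pow s
  · rw [h2]; exact h1.rk s
  · refine Eq.trans (Finset.sum_congr rfl fun s _ => ?_) h1.tot
    show finrank L (LinearMap.ker (C.res hG.form (Res 𝒟 (t + x • t') s))) = _
    rw [h2]

/-- **central**, from exact realisation at `t + x t'`. -/
theorem centralI [IsAlgClosed L] [CharZero L] (h : DHat hG t' C D Dh) (hrel : Rel 𝒟 t t')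
    (hDs : IsSA C.q1 D) (hDc : ∀ s, D * C.S1 hG.form s = C.S1 hG.form s * D) {x : L}
    (hu : IsUnit (1 + x • D)) (hon : ∀ w ∈ C.W, ∃ w' ∈ C.W, (1 + x • Dh) w' = w)
    (hn : ∃ N, words (Res 𝒟 (t + x • t')) N ≤ C.W)
    (hm : ∀ C' : Core 𝒟.q (Res 𝒟 (t + x • t')), RealS C'.q1 (C'.S1 hG.form))
    (hN : NullCore C hG.form) (M : End L C.V1) (hM : IsSA C.q1 M)
    (hMS : ∀ s, M * ((1 + x • D) ^ 2 * C.S1 hG.form s) = (1 + x • D) ^ 2 * C.S1 hG.form s * M) :
    M * D = D * M := by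
  have hR : RealS C.q1 (fun s => C.res hG.form (Res 𝒟 (t + x • t') s)) :=
    hm (coreI h hrel hon hn)
  simp only [resI h hrel hDc] at hR
  obtain ⟨p, hp⟩ := H258.nul_core hG t C hN
  have hstr := H58.structThm _ _ _ p (nul_sq hDs hDc hu hp) hR
  refine H55.comm_of_struct hstr hM hMS hDs (fun s => ?_)
  have h1 : D * (1 + x • D) ^ 2 = (1 + x • D) ^ 2 * D := by
    have h2 : Commute D (1 + x • D) :=
      (Commute.one_right D).add_right ((Commute.refl D).smul_right x)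
    exact (h2.pow_right 2)
  rw [← mul_assoc, h1, mul_assoc, hDc, mul_assoc]

/-- `1 + x Dh` is onto `W` for almost all `x` -/
theorem eventually_onto (h : DHat hG t' C D Dh) :
    ∀ᶠ x : L in cofinite, ∀ w ∈ C.W, ∃ w' ∈ C.W, (1 + x • Dh) w' = w := by
  filter_upwards [H55.eventually_unit (Dh.restrict h.mem)] with x hx w hw
  obtain ⟨g, hg⟩ := hx.exists_right_inv
  have h1 := LinearMap.congr_fun hg ⟨w, hw⟩
  have h2 := congrArg Subtype.val h1
  refine ⟨g ⟨w, hw⟩, (g ⟨w, hw⟩).2, ?_⟩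
  rw [LinearMap.add_apply, LinearMap.smul_apply, Module.End.one_apply]
  exact h2

/-- **Good parameters exist**; at them `t + x t'` is again general. -/
theorem exists_goodI [IsAlgClosed L] [CharZero L] {u : J → L} (hC : CritU 𝒟 u)
    (ht : MaxCoreU 𝒟 u t) (hm : MovesU 𝒟 u t) (ht' : t' ∈ Ku 𝒟 u)
    (h : DHat hC.ctx.good t' C D Dh) (hDs : IsSA C.q1 D)
    (hDc : ∀ s, D * C.S1 hC.ctx.good.form s = C.S1 hC.ctx.good.form s * D)
    (hK : ∀ k ∈ Ku 𝒟 u, ∃ a b : L, k = a • t + b • t') (hN : NullCore C hC.ctx.good.form) :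
    {x : L | GoodI hC.ctx.good t' C D Dh x ∧ MaxCoreU 𝒟 u (t + x • t') ∧
      MovesU 𝒟 u (t + x • t')}.Infinite := by
  obtain ⟨σ, hR⟩ := hC.ctx.real
  have hrel : Rel 𝒟 t t' := U.rel_of_krel hC.ctx.krel ht.1 ht'
  have h1 := ((H55.eventually_unit D).and (eventually_onto h)).and
    (H55.eventually_movesU (𝒟 := 𝒟) (Ku 𝒟 u)
      (fun c hc z hz => isD_Ku hR hc hz) ht.1 ht' hK hm)
  have h2 : (Set.range fun n : ℕ => (n : L)).Infinite :=
    Set.infinite_range_of_injective Nat.cast_injective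
  refine (h2.sdiff h1).mono ?_
  rintro x ⟨⟨n, rfl⟩, hx⟩
  obtain ⟨⟨hu, hon⟩, hmx⟩ := Classical.not_not.mp hx
  have hxK : t + (n : L) • t' ∈ Ku 𝒟 u :=
    Submodule.add_mem _ ht.1 (Submodule.smul_mem _ _ ht')
  have hmx' : MovesU 𝒟 u (t + (n : L) • t') := hmx ⟨n, rfl⟩
  have hn := h.nil_of_max hrel hon fun C' => ht.2 _ hxK C C'
  refine ⟨⟨hu, hon, hn, centralI h hrel hDs hDc hu hon hn
    (fun C' => hC.ctx.realS _ hxK hmx' C') hN⟩, ⟨hxK, fun r hr C1 C2 => ?_⟩, hmx'⟩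
  rw [finrank_core' C1 (coreI h hrel hon hn)]
  exact ht.2 r hr C C2

end base

end Vale.Agent.P182.H89
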