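import Vale.Agent.P182.H533.Core

/-!
# The level lemma for a nilpotent self-adjoint operator all of whose blocks have the same size
-/

namespace Vale.Agent.P182.H89

open Module Vale.Agent.P182.H533

section level

variable {L V : Type*} [Field L] [AddCommGroup V] [Module L V]

/-- the self-adjoint endomorphisms commuting with `τ` -/
def SymC (q : V →ₗ[L] V →ₗ[L] L) (τ : End L V) : Submodule L (End L V) where
  carrier := {D | IsSA q D ∧ D * τ = τ * D}
  add_mem' := fun {a b} ha hb => ⟨fun u v => by
    rw [LinearMap.add_apply, LinearMap.add_apply, map_add, map_add, LinearMap.add_apply, ha.1, hb.1],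
    by rw [add_mul, mul_add, ha.2, hb.2]⟩
  zero_mem' := ⟨fun u v => by simp, by simp⟩
  smul_mem' := fun c a ha => ⟨fun u v => by
    rw [LinearMap.smul_apply, LinearMap.smul_apply, map_smul, map_smul, LinearMap.smul_apply, ha.1],
    by rw [smul_mul_assoc, mul_smul_comm, ha.2]⟩

theorem mem_SymC {q : V →ₗ[L] V →ₗ[L] L} {τ D : End L V} :
    D ∈ SymC q τ ↔ IsSA q D ∧ D * τ = τ * D := Iff.rfl

/-- commuting with powers -/
theorem SymC.pow {q : V →ₗ[L] V →ₗ[L] L} {τ D : End L V} (hD : D ∈ SymC q τ) (i : ℕ) (v : V) :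
    D ((τ ^ i) v) = (τ ^ i) (D v) := by
  have h : Commute D τ := hD.2
  exact LinearMap.congr_fun (h.pow_right i) v

theorem SA_pow {q : V →ₗ[L] V →ₗ[L] L} {τ : End L V} (hτ : IsSA q τ) (i : ℕ) :
    IsSA q (τ ^ i) := by
  induction i with
  | zero => intro u v; rfl
  | succ i ih =>
    intro u v
    have e1 : (τ ^ (i + 1)) u = (τ ^ i) (τ u) := by rw [pow_succ]; rfl
    have e2 : (τ ^ (i + 1)) v = τ ((τ ^ i) v) := by rw [pow_succ']; rfl
    rw [e1, e2, ih, hτ]

/-- the elementary operators -/
def El (q : V →ₗ[L] V →ₗ[L] L) (τ : End L V) (p : ℕ) (x : V) : End L V :=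
  ∑ i ∈ Finset.range p, ((q x) ∘ₗ (τ ^ i)).smulRight ((τ ^ (p - 1 - i)) x)

theorem El_apply (q : V →ₗ[L] V →ₗ[L] L) (τ : End L V) (p : ℕ) (x v : V) :
    El q τ p x v = ∑ i ∈ Finset.range p, q x ((τ ^ i) v) • (τ ^ (p - 1 - i)) x := by
  rw [El, LinearMap.sum_apply]
  rfl

theorem El_mem {q : V →ₗ[L] V →ₗ[L] L} (hq : IsForm q) {τ : End L V} (hτ : IsSA q τ) {p : ℕ}
    (hp : τ ^ p = 0) (x : V) : El q τ p x ∈ SymC q τ := by
  refine ⟨fun u v => ?_, ?_⟩
  · rw [El_apply, El_apply, map_sum, map_sum, LinearMap.sum_apply,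
      ← Finset.sum_range_reflect]
    refine Finset.sum_congr rfl fun i hi => ?_
    have hi' := Finset.mem_range.mp hi
    have h1 : p - 1 - (p - 1 - i) = i := by omega
    rw [map_smul, map_smul, LinearMap.smul_apply, smul_eq_mul, smul_eq_mul, h1,
      SA_pow hτ i x v, hq.symm x ((τ ^ (p - 1 - i)) u), SA_pow hτ (p - 1 - i) u x, mul_comm]
  · refine LinearMap.ext fun v => ?_
    rw [Module.End.mul_apply, Module.End.mul_apply, El_apply, El_apply, map_sum]
    rcases p with _ | p
    · simp
    rw [Finset.sum_range_succ, Finset.sum_range_succ', ← Module.End.mul_apply, ← pow_succ, hp,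
      LinearMap.zero_apply, map_zero, zero_smul, add_zero]
    rw [map_smul (τ : V →ₗ[L] V) (q x ((τ ^ 0) v)), ← Module.End.mul_apply (τ) (τ ^ (p + 1 - 1 - 0)),
      ← pow_succ']
    have h2 : p + 1 - 1 - 0 + 1 = p + 1 := by omega
    rw [h2, hp, LinearMap.zero_apply, smul_zero, add_zero]
    refine Finset.sum_congr rfl fun i hi => ?_
    have hi' := Finset.mem_range.mp hi
    rw [map_smul, ← Module.End.mul_apply, ← pow_succ, ← Module.End.mul_apply τ, ← pow_succ']
    congr 3
    omega

/-- the value of the elementary operators on the top level -/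
theorem El_top {q : V →ₗ[L] V →ₗ[L] L} (hq : IsForm q) {τ : End L V} {p : ℕ}
    (hp0 : 1 ≤ p) (hp : τ ^ p = 0) (x a y : V) :
    q ((τ ^ (p - 1)) (El q τ p x a)) y = q ((τ ^ (p - 1)) a) x * q ((τ ^ (p - 1)) x) y := by
  rw [El_apply, map_sum, map_sum, LinearMap.sum_apply, Finset.sum_eq_single (p - 1)]
  · rw [map_smul, map_smul, LinearMap.smul_apply, smul_eq_mul, Nat.sub_self, pow_zero,
      Module.End.one_apply, hq.symm x]
  · intro i hi hne
    have hi' := Finset.mem_range.mp hi
    rw [map_smul, ← Module.End.mul_apply, ← pow_add]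
    have h1 : p - 1 + (p - 1 - i) = p + (p - 1 - i - 1) := by omega
    rw [h1, pow_add, hp, zero_mul, LinearMap.zero_apply, smul_zero, map_zero,
      LinearMap.zero_apply]
  · intro h
    exact absurd (Finset.mem_range.mpr (by omega)) h

/-- two products of linear forms -/
theorem forms_prod {α φ η' η : V →ₗ[L] L} (hind : ∀ c d : L, c • α + d • φ = 0 → c = 0 ∧ d = 0)
    (h : ∀ x, α x * η' x + φ x * η x = 0) : ∃ c : L, η' = c • φ ∧ η = - (c • α) := by
  have hα : α ≠ 0 := fun h0 => by
    have := hind 1 0 (by rw [h0]; simp)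
    exact one_ne_zero this.1
  -- `η` vanishes on the kernel of `α`
  have h1 : ∀ x, α x = 0 → η x = 0 := by
    by_contra hcon
    push Not at hcon
    obtain ⟨x, hx, hηx⟩ := hcon
    have hφx : φ x = 0 := by
      have := h x
      rw [hx, zero_mul, zero_add] at this
      exact (mul_eq_zero.mp this).resolve_right hηx
    -- `φ` is not zero on the kernel of `α`
    obtain ⟨z, hz, hφz⟩ : ∃ z, α z = 0 ∧ φ z ≠ 0 := by
      by_contra hc
      push Not at hc
      obtain ⟨w, hw⟩ : ∃ w, α w ≠ 0 := by
        by_contra hc'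
        push Not at hc'
        exact hα (LinearMap.ext hc')
      have : (- (φ w / α w)) • α + (1 : L) • φ = 0 := by
        ext v
        have h2 := hc (v - (α v / α w) • w) (by
          rw [map_sub, map_smul, smul_eq_mul, div_mul_cancel₀ _ hw, sub_self])
        rw [map_sub, map_smul, smul_eq_mul, sub_eq_zero] at h2
        simp only [LinearMap.add_apply, LinearMap.smul_apply, smul_eq_mul, LinearMap.zero_apply,
          one_mul]
        rw [h2]
        field_simp
        ring
      exact one_ne_zero (hind _ _ this).2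
    have hηz : η z = 0 := by
      have := h z
      rw [hz, zero_mul, zero_add] at this
      exact (mul_eq_zero.mp this).resolve_left hφz
    have h3 := h (x + z)
    rw [map_add, map_add, map_add, map_add, hx, hz, hφx, hηz, add_zero, zero_mul, zero_add,
      zero_add, add_zero] at h3
    exact (mul_ne_zero hφz hηx) h3
  obtain ⟨w, hw⟩ : ∃ w, α w ≠ 0 := by
    by_contra hc'
    push Not at hc'
    exact hα (LinearMap.ext hc')
  refine ⟨- (η w / α w), ?_, ?_⟩
  · -- first `η`
    have hη : ∀ v, η v = (η w / α w) * α v := by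
      intro v
      have h2 := h1 (v - (α v / α w) • w) (by
        rw [map_sub, map_smul, smul_eq_mul, div_mul_cancel₀ _ hw, sub_self])
      rw [map_sub, map_smul, smul_eq_mul, sub_eq_zero] at h2
      rw [h2]
      ring
    have h4 : ∀ v, α v ≠ 0 → η' v = - (η w / α w) * φ v := by
      intro v hv
      have := h v
      rw [hη v] at this
      have h5 : α v * (η' v + (η w / α w) * φ v) = 0 := by linear_combination this
      have h6 := (mul_eq_zero.mp h5).resolve_left hv
      linear_combination h6
    ext v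
    rw [LinearMap.smul_apply, smul_eq_mul]
    by_cases hv : α v = 0
    · have h7 := h4 (v + w) (by rw [map_add, hv, zero_add]; exact hw)
      rw [map_add, map_add, h4 w hw] at h7
      linear_combination h7
    · exact h4 v hv
  · ext v
    have h2 := h1 (v - (α v / α w) • w) (by
      rw [map_sub, map_smul, smul_eq_mul, div_mul_cancel₀ _ hw, sub_self])
    rw [map_sub, map_smul, smul_eq_mul, sub_eq_zero] at h2
    rw [LinearMap.neg_apply, LinearMap.smul_apply, smul_eq_mul, h2]
    ring

variable [FiniteDimensional L V]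

theorem finrank_perp {q : V →ₗ[L] V →ₗ[L] L} (hq : IsForm q) (W : Submodule L V) :
    finrank L W + finrank L (perp q W) = finrank L V := by
  have h1 : perp q W = (W.dualAnnihilator).comap hq.eqv.toLinearMap := by
    ext v
    rw [mem_perp, Submodule.mem_comap, Submodule.mem_dualAnnihilator]
    rfl
  have h2 : finrank L (perp q W) = finrank L W.dualAnnihilator := by
    rw [h1]
    exact (LinearEquiv.finrank_eq (hq.eqv.submoduleMap _)).trans (by
      rw [show ((W.dualAnnihilator).comap hq.eqv.toLinearMap).map (hq.eqv : V →ₗ[L] Dual L V) =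
        W.dualAnnihilator from Submodule.map_comap_eq_of_surjective hq.eqv.surjective _])
  rw [h2, Subspace.finrank_add_finrank_dualAnnihilator_eq]

theorem perp_perp {q : V →ₗ[L] V →ₗ[L] L} (hq : IsForm q) (W : Submodule L V) :
    perp q (perp q W) = W := by
  symm
  apply Submodule.eq_of_le_of_finrank_eq
  · intro v hv w hw
    rw [hq.symm]
    exact hw v hv
  · have h1 := finrank_perp hq W
    have h2 := finrank_perp hq (perp q W)
    omega

omit [FiniteDimensional L V] in
theorem perp_range {q : V →ₗ[L] V →ₗ[L] L} (hq : IsForm q) {f : End L V} (hf : IsSA q f) :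
    perp q (LinearMap.range f) = LinearMap.ker f := by
  ext v
  rw [mem_perp, LinearMap.mem_ker]
  constructor
  · intro h
    apply hq.nondeg
    intro w
    rw [hf]
    exact h _ ⟨w, rfl⟩
  · rintro h _ ⟨w, rfl⟩
    rw [← hf, h, map_zero, LinearMap.zero_apply]

theorem perp_ker {q : V →ₗ[L] V →ₗ[L] L} (hq : IsForm q) {f : End L V} (hf : IsSA q f) :
    perp q (LinearMap.ker f) = LinearMap.range f := by
  rw [← perp_range hq hf, perp_perp hq]

/-- the radical of the form `q(τ^(p-1) x, y)` -/
theorem mem_range_of_top {q : V →ₗ[L] V →ₗ[L] L} (hq : IsForm q) {τ : End L V} (hτ : IsSA q τ)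
    {p : ℕ} (hker : LinearMap.ker τ ≤ LinearMap.range (τ ^ (p - 1))) {y : V}
    (hy : ∀ x, q ((τ ^ (p - 1)) x) y = 0) : y ∈ LinearMap.range τ := by
  rw [← perp_ker hq hτ, mem_perp]
  intro w hw
  obtain ⟨x, rfl⟩ := hker hw
  rw [hq.symm]
  exact hy x

/-- **The level lemma.** -/
theorem level {q : V →ₗ[L] V →ₗ[L] L} (hq : IsForm q) {τ : End L V} (hτ : IsSA q τ) {p : ℕ}
    (hp0 : 1 ≤ p) (hp : τ ^ p = 0) (hker : LinearMap.ker τ ≤ LinearMap.range (τ ^ (p - 1)))
    {a f : V} (hind : ∀ c d : L, c • a + d • f ∈ LinearMap.range τ → c = 0 ∧ d = 0)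
    {Y : Submodule L V} (hY : LinearMap.range τ ≤ Y) {Q : Submodule L (End L V)}
    (hQ : Q ≤ SymC q τ) (h1 : ∀ D ∈ Q, D a ∈ Y)
    (h2 : ∀ D ∈ Q, ∀ y ∈ Y, q ((τ ^ (p - 1)) y) (D f) = 0) :
    finrank L Q + finrank L (LinearMap.ker τ) ≤ finrank L (SymC q τ) + 1 := by
  classical
  let Y' : Submodule L V := perp q (Y.map (τ ^ (p - 1)))
  have hY' : ∀ {y'}, y' ∈ Y' ↔ ∀ y ∈ Y, q ((τ ^ (p - 1)) y) y' = 0 := by
    intro y'
    constructor
    · intro h y hy
      rw [hq.symm]
      exact h _ (Submodule.mem_map_of_mem hy)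
    · rintro h _ ⟨y, hy, rfl⟩
      rw [hq.symm]
      exact h y hy
  -- the dimension of `Y'`
  have hdimY : finrank L V + finrank L (LinearMap.range τ) ≤ finrank L Y' + finrank L Y := by
    have h3 := finrank_perp hq (Y.map (τ ^ (p - 1)))
    have h4 : finrank L (Y.map (τ ^ (p - 1))) + finrank L (LinearMap.range τ) ≤ finrank L Y := by
      have h5 := LinearMap.finrank_range_add_finrank_ker ((τ ^ (p - 1)).domRestrict Y)
      have h6 : LinearMap.range ((τ ^ (p - 1)).domRestrict Y) = Y.map (τ ^ (p - 1)) := by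
        rw [LinearMap.range_domRestrict]
      rw [h6] at h5
      have h7 : finrank L (LinearMap.range τ) ≤
          finrank L (LinearMap.ker ((τ ^ (p - 1)).domRestrict Y)) := by
        refine LinearMap.finrank_le_finrank_of_injective
          (f := LinearMap.codRestrict _ (Submodule.inclusion hY) ?_) ?_
        · rintro ⟨_, x, rfl⟩
          rw [LinearMap.mem_ker]
          show (τ ^ (p - 1)) (τ x) = 0
          rw [← Module.End.mul_apply, ← pow_succ, Nat.sub_add_cancel hp0, hp]
          rfl
        · intro x y h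
          have := congrArg (fun z => ((z : LinearMap.ker _) : Y)) h
          exact Submodule.inclusion_injective hY this
      omega
    have h8 : finrank L Y' = finrank L (perp q (Y.map (τ ^ (p - 1)))) := rfl
    omega
  let S := SymC q τ
  let Ψ : (Y' × Y) →ₗ[L] Dual L S :=
    LinearMap.coprod
      { toFun := fun y' =>
          { toFun := fun D => q ((τ ^ (p - 1)) ((D : End L V) a)) y'
            map_add' := fun D E => by
              show q ((τ ^ (p - 1)) (((D : End L V) + (E : End L V)) a)) y' = _
              rw [LinearMap.add_apply, map_add, map_add, LinearMap.add_apply]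
            map_smul' := fun c D => by
              show q ((τ ^ (p - 1)) ((c • (D : End L V)) a)) y' = _
              rw [LinearMap.smul_apply, map_smul, map_smul, LinearMap.smul_apply]; rfl }
        map_add' := fun y z => LinearMap.ext fun D => map_add (q _) (y : V) (z : V)
        map_smul' := fun c y => LinearMap.ext fun D => map_smul (q _) c (y : V) }
      { toFun := fun y =>
          { toFun := fun D => q ((τ ^ (p - 1)) ((D : End L V) f)) y
            map_add' := fun D E => by
              show q ((τ ^ (p - 1)) (((D : End L V) + (E : End L V)) f)) y = _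
              rw [LinearMap.add_apply, map_add, map_add, LinearMap.add_apply]
            map_smul' := fun c D => by
              show q ((τ ^ (p - 1)) ((c • (D : End L V)) f)) y = _
              rw [LinearMap.smul_apply, map_smul, map_smul, LinearMap.smul_apply]; rfl }
        map_add' := fun y z => LinearMap.ext fun D => map_add (q _) (y : V) (z : V)
        map_smul' := fun c y => LinearMap.ext fun D => map_smul (q _) c (y : V) }
  have hΨ : ∀ (y' : Y') (y : Y) (D : S), Ψ (y', y) D =
      q ((τ ^ (p - 1)) ((D : End L V) a)) y' + q ((τ ^ (p - 1)) ((D : End L V) f)) y :=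
    fun _ _ _ => rfl
  -- the kernel
  have hkerΨ : ∀ (y' : Y') (y : Y), Ψ (y', y) = 0 →
      ∃ c : L, (y' : V) - c • f ∈ LinearMap.range τ ∧ (y : V) + c • a ∈ LinearMap.range τ := by
    intro y' y h
    let α : V →ₗ[L] L := q ((τ ^ (p - 1)) a)
    let φ : V →ₗ[L] L := q ((τ ^ (p - 1)) f)
    let η' : V →ₗ[L] L := q ((τ ^ (p - 1)) (y' : V))
    let η : V →ₗ[L] L := q ((τ ^ (p - 1)) (y : V))
    have hsw : ∀ x z : V, q ((τ ^ (p - 1)) x) z = q ((τ ^ (p - 1)) z) x := fun x z => by
      rw [SA_pow hτ (p - 1) x z, hq.symm]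
    obtain ⟨c, hc1, hc2⟩ := forms_prod (α := α) (φ := φ) (η' := η') (η := η) (by
      intro c d hcd
      apply hind
      apply mem_range_of_top hq hτ hker
      intro x
      rw [hsw, map_add, map_smul, map_smul, map_add, map_smul, map_smul]
      exact LinearMap.congr_fun hcd x) (by
      intro x
      have h3 := LinearMap.congr_fun h ⟨El q τ p x, El_mem hq hτ hp x⟩
      rw [hΨ] at h3
      change q ((τ ^ (p - 1)) (El q τ p x a)) y' + q ((τ ^ (p - 1)) (El q τ p x f)) y = 0 at h3
      rw [El_top hq hp0 hp, El_top hq hp0 hp, hsw x, hsw x] at h3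
      exact h3)
    refine ⟨c, ?_, ?_⟩
    · apply mem_range_of_top hq hτ hker
      intro x
      have h3 := LinearMap.congr_fun hc1 x
      rw [hsw, map_sub, map_smul, map_sub, map_smul, LinearMap.sub_apply, LinearMap.smul_apply]
      rw [sub_eq_zero]
      exact h3
    · apply mem_range_of_top hq hτ hker
      intro x
      have h3 := LinearMap.congr_fun hc2 x
      rw [hsw, map_add, map_smul, map_add, map_smul, LinearMap.add_apply, LinearMap.smul_apply]
      rw [add_eq_zero_iff_eq_neg]
      exact h3
  have hker1 : finrank L (LinearMap.ker Ψ) ≤ 1 + 2 * finrank L (LinearMap.range τ) := by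
    let G : (L × (LinearMap.range τ × LinearMap.range τ)) →ₗ[L] V × V :=
      LinearMap.coprod
        (LinearMap.prod (LinearMap.toSpanSingleton L V f) (-(LinearMap.toSpanSingleton L V a)))
        (LinearMap.prodMap (Submodule.subtype _) (Submodule.subtype _))
    have hG : ∀ c r1 r2, G (c, (r1, r2)) = (c • f + (r1 : V), - (c • a) + (r2 : V)) :=
      fun _ _ _ => rfl
    let ι : (Y' × Y) →ₗ[L] V × V := LinearMap.prodMap (Submodule.subtype _) (Submodule.subtype _)
    have hι : Function.Injective ι := by
      rintro ⟨x1, x2⟩ ⟨z1, z2⟩ h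
      have e1 := congrArg Prod.fst h
      have e2 := congrArg Prod.snd h
      exact Prod.ext (Subtype.ext e1) (Subtype.ext e2)
    have hle : (LinearMap.ker Ψ).map ι ≤ LinearMap.range G := by
      rintro _ ⟨⟨y', y⟩, hy, rfl⟩
      obtain ⟨c, hc1, hc2⟩ := hkerΨ y' y hy
      refine ⟨(c, (⟨_, hc1⟩, ⟨_, hc2⟩)), ?_⟩
      rw [hG]
      refine Prod.ext ?_ ?_
      · show c • f + ((y' : V) - c • f) = y'
        abel
      · show - (c • a) + ((y : V) + c • a) = y
        abel
    calc finrank L (LinearMap.ker Ψ) = finrank L ((LinearMap.ker Ψ).map ι) :=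
          (LinearEquiv.finrank_eq (Submodule.equivMapOfInjective ι hι _))
      _ ≤ finrank L (LinearMap.range G) := Submodule.finrank_mono hle
      _ ≤ finrank L (L × (LinearMap.range τ × LinearMap.range τ)) := LinearMap.finrank_range_le G
      _ = 1 + 2 * finrank L (LinearMap.range τ) := by
          rw [Module.finrank_prod, Module.finrank_prod, Module.finrank_self]
          ring
  -- the range
  let Q' : Submodule L S := Q.comap S.subtype
  have hQ' : finrank L Q' = finrank L Q := by
    exact (Submodule.comapSubtypeEquivOfLe hQ).finrank_eq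
  have hran : LinearMap.range Ψ ≤ Q'.dualAnnihilator := by
    rintro _ ⟨⟨y', y⟩, rfl⟩
    rw [Submodule.mem_dualAnnihilator]
    intro D hD
    rw [hΨ]
    have hD' : (D : End L V) ∈ Q := hD
    rw [hY'.mp y'.2 _ (h1 _ hD'), zero_add, SA_pow hτ (p - 1) _ (y : V), hq.symm]
    exact h2 _ hD' _ y.2
  have h9 := Subspace.finrank_add_finrank_dualAnnihilator_eq Q'
  have h10 := Submodule.finrank_mono hran
  have h11 := LinearMap.finrank_range_add_finrank_ker Ψ
  rw [Module.finrank_prod] at h11
  have h12 := LinearMap.finrank_range_add_finrank_ker τ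
  have h13 : finrank L S = finrank L (SymC q τ) := rfl
  omega

end level

end Vale.Agent.P182.H89
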