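import Vale.Agent.P182.H89.Comm

/-!
# Restriction to the range of a symmetric idempotent
-/

namespace Vale.Agent.P182.H89

open Module Vale.Agent.P182.H533

universe u v

section red

variable {L : Type u} {V : Type v} [Field L] [AddCommGroup V] [Module L V]
  {q : V →ₗ[L] V →ₗ[L] L} {S : Fin 3 → End L V} {p : Fin 3 → ℕ} {e : End L V}

/-- the restricted form -/
def qW (q : V →ₗ[L] V →ₗ[L] L) (e : End L V) :
    LinearMap.range e →ₗ[L] LinearMap.range e →ₗ[L] L :=
  q.domRestrict₁₂ (LinearMap.range e) (LinearMap.range e)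

theorem qW_apply (u v : LinearMap.range e) : qW q e u v = q u v := rfl

/-- the compression -/
def cW (e X : End L V) : End L (LinearMap.range e) :=
  e.rangeRestrict ∘ₗ X ∘ₗ (LinearMap.range e).subtype

theorem cW_coe (X : End L V) (w : LinearMap.range e) : (cW e X w : V) = e (X w) := rfl

/-- the extension by zero -/
def lW (e : End L V) (Y : End L (LinearMap.range e)) : End L V :=
  (LinearMap.range e).subtype ∘ₗ Y ∘ₗ e.rangeRestrict

theorem lW_apply (Y : End L (LinearMap.range e)) (v : V) :
    lW e Y v = (Y (e.rangeRestrict v) : V) := rfl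

theorem idem_apply (he : e * e = e) {w : V} (hw : w ∈ LinearMap.range e) : e w = w := by
  obtain ⟨v, rfl⟩ := hw
  exact LinearMap.congr_fun he v

theorem rr_coe (he : e * e = e) (w : LinearMap.range e) : e.rangeRestrict (w : V) = w :=
  Subtype.ext (idem_apply he w.2)

theorem cW_coe' (he : e * e = e) {X : End L V} (hX : e * X = X * e) (w : LinearMap.range e) :
    (cW e X w : V) = X w := by
  rw [cW_coe, ← Module.End.mul_apply, hX, Module.End.mul_apply, idem_apply he w.2]

theorem cW_mul (he : e * e = e) {X Y : End L V} (hX : e * X = X * e) :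
    cW e (X * Y) = cW e X * cW e Y := by
  refine LinearMap.ext fun w => Subtype.ext ?_
  rw [Module.End.mul_apply, cW_coe' he hX, cW_coe, cW_coe, Module.End.mul_apply,
    ← Module.End.mul_apply, hX]
  rfl

theorem cW_add (X Y : End L V) : cW e (X + Y) = cW e X + cW e Y := by
  refine LinearMap.ext fun w => Subtype.ext ?_
  rw [LinearMap.add_apply, Submodule.coe_add, cW_coe, cW_coe, cW_coe, LinearMap.add_apply, map_add]

theorem cW_zero : cW e (0 : End L V) = 0 := by
  refine LinearMap.ext fun w => Subtype.ext ?_
  rw [cW_coe]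
  simp

theorem cW_one (he : e * e = e) : cW e (1 : End L V) = 1 := by
  refine LinearMap.ext fun w => Subtype.ext ?_
  rw [cW_coe]
  exact idem_apply he w.2

theorem cW_pow (he : e * e = e) {X : End L V} (hX : e * X = X * e) (n : ℕ) :
    cW e (X ^ n) = cW e X ^ n := by
  induction n with
  | zero => rw [pow_zero, pow_zero, cW_one he]
  | succ n ih => rw [pow_succ', pow_succ', cW_mul he hX, ih]

theorem cW_sum {ι : Type*} (t : Finset ι) (X : ι → End L V) :
    cW e (∑ i ∈ t, X i) = ∑ i ∈ t, cW e (X i) := by
  classical
  induction t using Finset.induction_on with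
  | empty => rw [Finset.sum_empty, Finset.sum_empty, cW_zero]
  | insert a t ha ih => rw [Finset.sum_insert ha, Finset.sum_insert ha, cW_add, ih]

theorem cW_SA (hes : IsSA q e) {X : End L V} (he : e * e = e) (hX : IsSA q X) :
    IsSA (qW q e) (cW e X) := by
  intro u v
  rw [qW_apply, qW_apply, cW_coe, cW_coe, hes, idem_apply he v.2, hX, ← hes,
    idem_apply he u.2]

theorem lW_SA (he : e * e = e) (hes : IsSA q e) {Y : End L (LinearMap.range e)}
    (hY : IsSA (qW q e) Y) : IsSA q (lW e Y) := by
  intro u v
  rw [lW_apply, lW_apply]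
  have h1 := hY (e.rangeRestrict u) (e.rangeRestrict v)
  rw [qW_apply, qW_apply] at h1
  have h2 : q (Y (e.rangeRestrict u) : V) v = q (Y (e.rangeRestrict u) : V) (e v) := by
    rw [← hes, idem_apply he (Y _).2]
  have h3 : q u (Y (e.rangeRestrict v) : V) = q (e u) (Y (e.rangeRestrict v) : V) := by
    rw [hes, idem_apply he (Y _).2]
  rw [h2, h3]
  exact h1

theorem lW_Sk (he : e * e = e) (hes : IsSA q e) {Y : End L (LinearMap.range e)}
    (hY : IsSk (qW q e) Y) : IsSk q (lW e Y) := by
  intro u v
  rw [lW_apply, lW_apply]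
  have h1 := hY (e.rangeRestrict u) (e.rangeRestrict v)
  rw [qW_apply, qW_apply] at h1
  have h2 : q (Y (e.rangeRestrict u) : V) v = q (Y (e.rangeRestrict u) : V) (e v) := by
    rw [← hes, idem_apply he (Y _).2]
  have h3 : q u (Y (e.rangeRestrict v) : V) = q (e u) (Y (e.rangeRestrict v) : V) := by
    rw [hes, idem_apply he (Y _).2]
  rw [h2, h3]
  exact h1

theorem lW_mul (he : e * e = e) (Y Z : End L (LinearMap.range e)) :
    lW e (Y * Z) = lW e Y * lW e Z := by
  refine LinearMap.ext fun v => ?_
  rw [Module.End.mul_apply, lW_apply, lW_apply, lW_apply, rr_coe he]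
  rfl

theorem lW_add (Y Z : End L (LinearMap.range e)) : lW e (Y + Z) = lW e Y + lW e Z := rfl

theorem lW_sub (Y Z : End L (LinearMap.range e)) : lW e (Y - Z) = lW e Y - lW e Z := rfl

theorem lW_smul (r : L) (Y : End L (LinearMap.range e)) : lW e (r • Y) = r • lW e Y := rfl

theorem lW_zero : lW e (0 : End L (LinearMap.range e)) = 0 := rfl

theorem lW_sum {ι : Type*} (t : Finset ι) (Y : ι → End L (LinearMap.range e)) :
    lW e (∑ i ∈ t, Y i) = ∑ i ∈ t, lW e (Y i) := by
  classical
  induction t using Finset.induction_on with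
  | empty => rw [Finset.sum_empty, Finset.sum_empty, lW_zero]
  | insert a t ha ih => rw [Finset.sum_insert ha, Finset.sum_insert ha, lW_add, ih]

theorem lW_one : lW e (1 : End L (LinearMap.range e)) = e := by
  refine LinearMap.ext fun v => ?_
  rfl

theorem lW_cW (he : e * e = e) {X : End L V} (hX : e * X = X * e) : lW e (cW e X) = e * X := by
  refine LinearMap.ext fun v => ?_
  rw [lW_apply, cW_coe' he hX, hX]
  rfl

theorem lW_mul_right (he : e * e = e) (Y : End L (LinearMap.range e)) {X : End L V}
    (hX : e * X = X * e) : lW e Y * X = lW e (Y * cW e X) := by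
  refine LinearMap.ext fun v => ?_
  rw [Module.End.mul_apply, lW_apply, lW_apply, Module.End.mul_apply]
  congr 2
  apply Subtype.ext
  rw [cW_coe' he hX]
  show e (X v) = X (e v)
  exact LinearMap.congr_fun hX v

theorem lW_mul_left (he : e * e = e) (Y : End L (LinearMap.range e)) {X : End L V}
    (hX : e * X = X * e) : X * lW e Y = lW e (cW e X * Y) := by
  refine LinearMap.ext fun v => ?_
  rw [Module.End.mul_apply, lW_apply, lW_apply, Module.End.mul_apply, cW_coe' he hX]

theorem lW_inj (he : e * e = e) {Y Z : End L (LinearMap.range e)} (h : lW e Y = lW e Z) :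
    Y = Z := by
  refine LinearMap.ext fun w => Subtype.ext ?_
  have := LinearMap.congr_fun h (w : V)
  rw [lW_apply, lW_apply, rr_coe he] at this
  exact this

/-- `ker τ ^ (j+1)` -/
theorem finrank_range_pow_le [FiniteDimensional L V] (τ : End L V) (j : ℕ) :
    finrank L (LinearMap.range (τ ^ j)) ≤
      finrank L (LinearMap.range (τ ^ (j + 1))) + finrank L (LinearMap.ker τ) := by
  have h1 := LinearMap.finrank_range_add_finrank_ker (τ.domRestrict (LinearMap.range (τ ^ j)))
  have h2 : LinearMap.range (τ.domRestrict (LinearMap.range (τ ^ j))) =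
      LinearMap.range (τ ^ (j + 1)) := by
    rw [pow_succ']
    ext v
    constructor
    · rintro ⟨⟨_, y, rfl⟩, rfl⟩
      exact ⟨y, rfl⟩
    · rintro ⟨y, rfl⟩
      exact ⟨⟨_, y, rfl⟩, rfl⟩
  have h3 : finrank L (LinearMap.ker (τ.domRestrict (LinearMap.range (τ ^ j)))) ≤
      finrank L (LinearMap.ker τ) := by
    let f : LinearMap.ker (τ.domRestrict (LinearMap.range (τ ^ j))) →ₗ[L] LinearMap.ker τ :=
      LinearMap.codRestrict _ ((LinearMap.range (τ ^ j)).subtype ∘ₗ Submodule.subtype _)
        (fun x => x.2)
    refine LinearMap.finrank_le_finrank_of_injective (f := f) ?_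
    intro x y hxy
    have : ((x : LinearMap.range (τ ^ j)) : V) = (y : LinearMap.range (τ ^ j)) :=
      congrArg (fun z : LinearMap.ker τ => (z : V)) hxy
    exact Subtype.ext (Subtype.ext this)
  rw [h2] at h1
  omega

theorem finrank_le_mul_ker [FiniteDimensional L V] {τ : End L V} {m : ℕ} (h : τ ^ m = 0) :
    finrank L V ≤ m * finrank L (LinearMap.ker τ) := by
  have h1 : ∀ j, finrank L V ≤ finrank L (LinearMap.range (τ ^ j)) +
      j * finrank L (LinearMap.ker τ) := by
    intro j
    induction j with
    | zero => rw [pow_zero, Module.End.one_eq_id, LinearMap.range_id, finrank_top]; omega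
    | succ j ih =>
      have := finrank_range_pow_le τ j
      rw [Nat.succ_mul]
      omega
  have h2 := h1 m
  rw [h, LinearMap.range_zero, finrank_bot, zero_add] at h2
  exact h2

/-- the complementary idempotent -/
theorem compl_idem (he : e * e = e) : (1 - e) * (1 - e) = 1 - e := by
  rw [mul_sub, mul_one, sub_mul, one_mul, he, sub_self, sub_zero]

theorem compl_SA (hes : IsSA q e) : IsSA q (1 - e) := by
  intro u v
  rw [LinearMap.sub_apply, LinearMap.sub_apply, map_sub, map_sub, LinearMap.sub_apply, hes]
  rfl

theorem compl_comm {X : End L V} (hX : e * X = X * e) : (1 - e) * X = X * (1 - e) := by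
  rw [sub_mul, mul_sub, one_mul, mul_one, hX]

theorem finrank_range_add_compl [FiniteDimensional L V] (he : e * e = e) :
    finrank L (LinearMap.range e) + finrank L (LinearMap.range (1 - e)) = finrank L V := by
  rw [← LinearMap.finrank_range_add_finrank_ker e]
  have h1 : LinearMap.range (1 - e) = LinearMap.ker e := by
    ext v
    constructor
    · rintro ⟨u, rfl⟩
      rw [LinearMap.mem_ker, ← Module.End.mul_apply, mul_sub, mul_one, he, sub_self]
      rfl
    · intro hv
      rw [LinearMap.mem_ker] at hv
      exact ⟨v, by rw [LinearMap.sub_apply, hv, sub_zero]; rfl⟩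
  rw [h1]

theorem finrank_ker_add_le [FiniteDimensional L V] (he : e * e = e) {X : End L V}
    (hX : e * X = X * e) :
    finrank L (LinearMap.ker (cW e X)) + finrank L (LinearMap.ker (cW (1 - e) X)) ≤
      finrank L (LinearMap.ker X) := by
  rw [← Module.finrank_prod]
  have he' := compl_idem he
  have hX' := compl_comm hX
  let f : (LinearMap.ker (cW e X) × LinearMap.ker (cW (1 - e) X)) →ₗ[L] LinearMap.ker X :=
    LinearMap.codRestrict _
      ((LinearMap.range e).subtype ∘ₗ Submodule.subtype _ ∘ₗ LinearMap.fst L _ _ +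
        (LinearMap.range (1 - e)).subtype ∘ₗ Submodule.subtype _ ∘ₗ LinearMap.snd L _ _)
      (fun x => by
        have h1 : X ((x.1 : LinearMap.range e) : V) = 0 := by
          rw [← cW_coe' he hX, x.1.2]; rfl
        have h2 : X ((x.2 : LinearMap.range (1 - e)) : V) = 0 := by
          rw [← cW_coe' he' hX', x.2.2]; rfl
        rw [LinearMap.mem_ker, LinearMap.add_apply, map_add]
        show X ((x.1 : LinearMap.range e) : V) + X ((x.2 : LinearMap.range (1 - e)) : V) = 0
        rw [h1, h2, add_zero])
  refine LinearMap.finrank_le_finrank_of_injective (f := f) ?_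
  rw [← LinearMap.ker_eq_bot, LinearMap.ker_eq_bot']
  rintro ⟨x, y⟩ hxy
  have h1 : ((x : LinearMap.range e) : V) + ((y : LinearMap.range (1 - e)) : V) = 0 :=
    congrArg Subtype.val hxy
  have h2 : e ((y : LinearMap.range (1 - e)) : V) = 0 := by
    rw [← idem_apply he' y.1.2, ← Module.End.mul_apply, mul_sub, mul_one, he, sub_self]
    rfl
  have h3 := congrArg e h1
  rw [map_add, h2, add_zero, map_zero, idem_apply he x.1.2] at h3
  rw [h3, zero_add] at h1
  exact Prod.ext (Subtype.ext (Subtype.ext h3)) (Subtype.ext (Subtype.ext h1))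

/-- **restriction of the null type** -/
theorem Nul.red [FiniteDimensional L V] (h : Nul q S p) (he : e * e = e) (hes : IsSA q e)
    (hc : ∀ s, e * S s = S s * e) : Nul (qW q e) (fun s => cW e (S s)) p := by
  have he' := compl_idem he
  have hes' := compl_SA hes
  have hc' : ∀ s, (1 - e) * S s = S s * (1 - e) := fun s => compl_comm (hc s)
  have hpow : ∀ s, cW e (S s) ^ p s = 0 := fun s => by
    rw [← cW_pow he (hc s), h.pow, cW_zero]
  have hpow' : ∀ s, cW (1 - e) (S s) ^ p s = 0 := fun s => by
    rw [← cW_pow he' (hc' s), h.pow, cW_zero]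
  have hrk : ∀ s, finrank L (LinearMap.range e) =
      p s * finrank L (LinearMap.ker (cW e (S s))) := by
    intro s
    have h1 := finrank_le_mul_ker (hpow s)
    have h2 := finrank_le_mul_ker (hpow' s)
    have h3 := finrank_range_add_compl he
    have h4 := Nat.mul_le_mul_left (p s) (finrank_ker_add_le he (hc s))
    rw [← h.rk s, mul_add] at h4
    omega
  refine ⟨⟨fun u v => h.form.symm _ _, fun u hu => ?_⟩, fun s => cW_SA hes he (h.sa s), ?_, hpow,
    hrk, ?_, ?_⟩
  · apply Subtype.ext
    apply h.form.nondeg
    intro v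
    have h1 := hu (e.rangeRestrict v)
    rw [qW_apply] at h1
    rw [← idem_apply he u.2, hes]
    exact h1
  · rw [← cW_sum, h.sum, cW_zero]
  · rcases Nat.eq_zero_or_pos (finrank L V) with h0 | h0
    · have h1 := finrank_range_add_compl he
      have h2 : finrank L (LinearMap.range e) = 0 := by omega
      rw [h2]
      refine Finset.sum_eq_zero fun s _ => ?_
      have := Submodule.finrank_le (LinearMap.ker (cW e (S s)))
      omega
    · apply Nat.eq_of_mul_eq_mul_right h0
      rw [Finset.sum_mul]
      calc ∑ s, finrank L (LinearMap.ker (cW e (S s))) * finrank L V =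
          ∑ s, finrank L (LinearMap.range e) * finrank L (LinearMap.ker (S s)) := by
            refine Finset.sum_congr rfl fun s _ => ?_
            rw [h.rk s, hrk s]
            ring
        _ = finrank L (LinearMap.range e) * finrank L V := by
            rw [← Finset.mul_sum, h.tot]
  · rw [eq_top_iff]
    intro w _
    have hw : (w : V) ∈ ⨆ s, LinearMap.range (S s) := by rw [h.span]; trivial
    have h1 : ∀ v ∈ ⨆ s, LinearMap.range (S s),
        e.rangeRestrict v ∈ ⨆ s, LinearMap.range (cW e (S s)) := by
      intro v hv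
      refine Submodule.iSup_induction (fun s => LinearMap.range (S s))
        (motive := fun v => e.rangeRestrict v ∈ ⨆ s, LinearMap.range (cW e (S s))) hv ?_ ?_ ?_
      · rintro s _ ⟨x, rfl⟩
        refine Submodule.mem_iSup_of_mem s ⟨e.rangeRestrict x, ?_⟩
        apply Subtype.ext
        rw [cW_coe' he (hc s)]
        show S s (e x) = e (S s x)
        exact (LinearMap.congr_fun (hc s) x).symm
      · rw [map_zero]; exact Submodule.zero_mem _
      · intro x y hx hy
        rw [map_add]
        exact Submodule.add_mem _ hx hy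
    have h2 := h1 _ hw
    rwa [rr_coe he] at h2

/-- **restriction of the realisation property** -/
theorem RealS.red (h : RealS q S) (he : e * e = e) (hes : IsSA q e)
    (hc : ∀ s, e * S s = S s * e) : RealS (qW q e) (fun s => cW e (S s)) := by
  intro A hA hsum
  obtain ⟨n, hn⟩ := h (fun s => lW e (A s)) (fun s => lW_Sk he hes (hA s)) (by
    have h1 : ∀ s, lW e (A s) * S s - S s * lW e (A s) =
        lW e (A s * cW e (S s) - cW e (S s) * A s) := by
      intro s
      rw [lW_mul_right he _ (hc s), lW_mul_left he _ (hc s), lW_sub]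
    rw [Finset.sum_congr rfl fun s _ => h1 s, ← lW_sum, hsum, lW_zero])
  refine ⟨{ d := n.d
            δ := e.rangeRestrict.toAddMonoidHom.comp
              (n.δ.comp (LinearMap.range e).subtype.toAddMonoidHom)
            leib := n.leib
            smul := fun a v => ?_
            metric := fun u v => ?_ }, fun s v => ?_⟩
  · show e.rangeRestrict (n.δ (a • (v : V))) = n.d a • v + a • e.rangeRestrict (n.δ v)
    rw [n.smul, map_add, map_smul, map_smul, rr_coe he]
  · show n.d (q u v) = q (e (n.δ u)) v + q u (e (n.δ v))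
    rw [n.metric, hes, idem_apply he v.2, ← hes, idem_apply he u.2]
  · apply Subtype.ext
    show e (n.δ (cW e (S s) v : V)) = _
    rw [cW_coe' he (hc s), hn, map_add, map_sub]
    have e1 : ((cW e (S s) (e.rangeRestrict (n.δ v)) : LinearMap.range e) : V) =
        e (S s (n.δ v)) := by
      rw [cW_coe' he (hc s)]
      exact (LinearMap.congr_fun (hc s) _).symm
    have e2 : e (lW e (A s) (S s v)) = (A s (cW e (S s) v) : V) := by
      rw [lW_apply, idem_apply he (A s _).2]
      congr 2
    have e3 : e (S s (lW e (A s) v)) = (cW e (S s) (A s v) : V) := by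
      rw [lW_apply, rr_coe he, cW_coe]
    rw [e2, e3, ← e1]
    rfl

end red

end Vale.Agent.P182.H89
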