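import Vale.Agent.P182.H89.EndI

/-!
# The auxiliary families at the second base, and the change of the base of `HHI`
-/

namespace Vale.Agent.P182.H89

open Vale.Agent.P182.H922 hiding ext0
open Module Matrix Vale.Agent.P182.H533 Vale.Agent.P182.B1 Vale.Agent.P182.H578
  Vale.Agent.P182.H588 Vale.Agent.P182.H181 Vale.Agent.P182.H983

universe u v w

variable {L : Type u} {V : Type v} {J : Type w} [Field L] [AddCommGroup V] [Module L V]
  [FiniteDimensional L V] [Fintype J] [DecidableEq J] {𝒟 : Cfg L V J}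

variable {hG : 𝒟.Good} {t t' : J → V} {C : Core 𝒟.q (Res 𝒟 t)} {D : End L C.V1} {Dh : End L V}

/-- `P` and endomorphisms preserving `I` -/
theorem P_map {q : V →ₗ[L] V →ₗ[L] L} {ι : Type*} {S : ι → End L V} (C : Core q S)
    (hq : IsForm q) {Γ : End L V} (h2 : ∀ i ∈ C.I, Γ i ∈ C.I)
    {w : V} (hw : w ∈ C.W) : C.P hq (Γ w) = C.res hq Γ (C.P hq w) := by
  have h3 := P_I C hq (h2 _ (C.sub_P_mem_I hq hw))
  rw [map_sub, map_sub, sub_eq_zero] at h3
  rw [h3, C.res_apply]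

theorem SA_one_add {E : Type*} [AddCommGroup E] [Module L E] {q : E →ₗ[L] E →ₗ[L] L}
    {D : End L E} (hDs : IsSA q D) (x : L) : IsSA q (1 + x • D) := by
  intro u w
  rw [LinearMap.add_apply, LinearMap.add_apply, map_add, map_add, LinearMap.add_apply,
    LinearMap.smul_apply, LinearMap.smul_apply, map_smul, map_smul, LinearMap.smul_apply, hDs]
  rfl

theorem comm_one_add' {R : Type*} [Ring R] [Algebra L R] {M D : R} (h : M * D = D * M) (x : L) :
    M * (1 + x • D) = (1 + x • D) * M := by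
  rw [mul_add, add_mul, one_mul, mul_one, mul_smul_comm, smul_mul_assoc, h]

/-- the core part of `Γ` is self adjoint -/
theorem M_SA {q : V →ₗ[L] V →ₗ[L] L} {ι : Type*} {S : ι → End L V} (C : Core q S)
    (hq : IsForm q) {Γ : End L V}
    (h : ∀ u ∈ C.W, ∀ v ∈ C.W, q (Γ u) v = q u (Γ v)) : IsSA C.q1 (C.res hq Γ) := by
  intro u v
  rw [C.res_apply, C.res_apply, C.q_P, h _ (C.V1_le u.2) _ (C.V1_le v.2),
    (C.isForm hq).symm, C.q_P, hq.symm]

namespace DHat

variable (h : DHat hG t' C D Dh)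
include h

theorem mapI1 (x : L) {i : V} (hi : i ∈ C.I) : (1 + x • Dh) i ∈ C.I := by
  apply mem_I_of C hG.form (h.mem1 x (C.I_le hi))
  rw [h.core1 x (C.I_le hi), P_I C hG.form hi, map_zero]

/-- **From `t + x t'` to `t`.** -/
theorem relG_down (hrel : Rel 𝒟 t t') (hDs : IsSA C.q1 D)
    (hDc : ∀ s, D * C.S1 hG.form s = C.S1 hG.form s * D) {x : L} (hx : GoodI hG t' C D Dh x)
    {Γ : End L V} {r : J → V} (hr : RelG 𝒟 C.W C.I (t + x • t') Γ r) :
    RelG 𝒟 C.W C.I t ((1 + x • Dh) * Γ) r := by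
  have hq := hG.form
  have hSA : ∀ s, IsSA 𝒟.q (Res 𝒟 t s) := Sop_SA 𝒟.arm hG.form (Tt L t) hG.skew
  set M : End L C.V1 := C.res hq Γ with hM
  have hPM : ∀ w ∈ C.W, C.P hq (Γ w) = M (C.P hq w) := fun w hw => P_map C hq hr.mapI hw
  have hMs : IsSA C.q1 M := M_SA C hq hr.sa
  have hMS : ∀ s, M * ((1 + x • D) ^ 2 * C.S1 hG.form s) =
      (1 + x • D) ^ 2 * C.S1 hG.form s * M := by
    intro s
    refine LinearMap.ext fun v => ?_
    have hv := C.V1_le v.2
    have hSv : Res 𝒟 (t + x • t') s v ∈ C.W := by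
      rw [h.res_tx hrel x s hv]
      exact C.map_W (h.mem1 x (h.mem1 x hv))
    have h1 := P_I C hq (hr.comm s v hv)
    rw [map_sub, sub_eq_zero, hPM _ hSv, P_Resx' h hrel hDc x s hv,
      P_Resx' h hrel hDc x s (hr.mapW _ hv), hPM _ hv, C.P_coe] at h1
    exact h1
  have hMD := hx.central M hMs hMS
  have hMg : M * (1 + x • D) = (1 + x • D) * M := comm_one_add' hMD x
  have hgs : IsSA C.q1 (1 + x • D) := SA_one_add hDs x
  have hMS1 : ∀ s, M * C.S1 hG.form s = C.S1 hG.form s * M := by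
    intro s
    apply (hx.unit.pow 2).mul_left_cancel
    have h7 : M * (1 + x • D) ^ 2 = (1 + x • D) ^ 2 * M := by
      rw [pow_two, ← mul_assoc, hMg, mul_assoc, hMg, mul_assoc]
    rw [← mul_assoc, ← h7, mul_assoc, hMS, mul_assoc]
  have hgM : ∀ w ∈ C.W, C.P hq (((1 + x • Dh) * Γ : End L V) w) =
      ((1 + x • D) * M : End L C.V1) (C.P hq w) := by
    intro w hw
    rw [Module.End.mul_apply, h.core1 x (hr.mapW _ hw), hPM _ hw]
    rfl
  have hmW : ∀ u ∈ C.W, ((1 + x • Dh) * Γ : End L V) u ∈ C.W := fun u hu =>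
    h.mem1 x (hr.mapW u hu)
  refine ⟨hmW, fun u hu => h.mapI1 x (hr.mapI u hu), fun u hu v hv => ?_, fun a u hu => ?_,
    fun u hu l => ?_, fun a u hu => ?_⟩
  · rw [q_PP C hq (hmW u hu) hv, q_PP C hq hu (hmW v hv), hgM u hu, hgM v hv,
      Module.End.mul_apply, hgs, hMs, ← Module.End.mul_apply M, hMg]
  · apply mem_I_of C hq (sub_mem (hmW _ (C.map_W hu)) (C.map_W (hmW _ hu)))
    rw [map_sub, hgM _ (C.map_W hu), P_S_W C hq hSA a hu, P_S_W C hq hSA a (hmW _ hu), hgM u hu,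
      ← Module.End.mul_apply, ← Module.End.mul_apply, ← LinearMap.sub_apply, mul_assoc, hMS1,
      ← mul_assoc, comm1 (hDc a), mul_assoc, sub_self, LinearMap.zero_apply]
  · rw [hr.one u hu l, hq.symm, h.rel1 x (hr.mapW _ hu), hq.symm]
    rfl
  · obtain ⟨u', hu', rfl⟩ := hx.onto u hu
    have h1 := hr.two a u' hu'
    rw [h.opr_right x r a hu', h.res_tx hrel x a (hr.mapW _ hu')] at h1
    have h2 : Γ ((1 + x • Dh) u') - (1 + x • Dh) (Γ u') ∈ C.I := by
      apply mem_I_of C hq (sub_mem (hr.mapW _ (h.mem1 x hu')) (h.mem1 x (hr.mapW _ hu')))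
      rw [map_sub, hPM _ (h.mem1 x hu'), h.core1 x hu', h.core1 x (hr.mapW _ hu'), hPM _ hu',
        ← Module.End.mul_apply, ← Module.End.mul_apply, hMg, sub_self]
    have h3 := C.map_I hSA (s := a) (h.mapI1 x h2)
    rw [map_sub, map_sub] at h3
    have h4 := sub_mem h1 h3
    rw [Module.End.mul_apply]
    convert h4 using 1
    abel

/-- an inverse of `1 + x Dh` on `W` -/
theorem exists_inv {x : L} (hon : ∀ w ∈ C.W, ∃ w' ∈ C.W, (1 + x • Dh) w' = w) :
    ∃ G : End L V, (∀ w ∈ C.W, G w ∈ C.W) ∧ (∀ w ∈ C.W, (1 + x • Dh) (G w) = w) ∧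
      ∀ w ∈ C.W, G ((1 + x • Dh) w) = w := by
  set f : End L C.W := (1 + x • Dh).restrict (fun w hw => h.mem1 x hw) with hf
  have hsurj : Function.Surjective f := by
    rintro ⟨w, hw⟩
    obtain ⟨w', hw', e⟩ := hon w hw
    exact ⟨⟨w', hw'⟩, Subtype.ext e⟩
  have hinj : Function.Injective f := LinearMap.injective_iff_surjective.mpr hsurj
  let e := LinearEquiv.ofBijective f ⟨hinj, hsurj⟩
  obtain ⟨p, hp⟩ := LinearMap.exists_leftInverse_of_injective C.W.subtype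
    (LinearMap.ker_eq_bot.mpr C.W.subtype_injective)
  have hpw : ∀ w (hw : w ∈ C.W), p w = ⟨w, hw⟩ := fun w hw =>
    LinearMap.congr_fun hp ⟨w, hw⟩
  refine ⟨C.W.subtype ∘ₗ e.symm.toLinearMap ∘ₗ p, fun w hw => ?_, fun w hw => ?_,
    fun w hw => ?_⟩
  · exact (e.symm (p w)).2
  · have h1 : f (e.symm (p w)) = p w := e.apply_symm_apply (p w)
    have h2 := congrArg Subtype.val h1
    rw [hpw w hw] at h2
    rw [LinearMap.comp_apply, LinearMap.comp_apply, hpw w hw]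
    exact h2
  · rw [LinearMap.comp_apply, LinearMap.comp_apply, hpw _ (h.mem1 x hw)]
    have h1 : e.symm (f ⟨w, hw⟩) = ⟨w, hw⟩ := e.symm_apply_apply ⟨w, hw⟩
    exact congrArg Subtype.val h1

/-- **From `t` to `t + x t'`.** -/
theorem relG_up (hrel : Rel 𝒟 t t') (hDs : IsSA C.q1 D)
    (hDc : ∀ s, D * C.S1 hG.form s = C.S1 hG.form s * D)
    (hcen : ∀ M : End L C.V1, IsSA C.q1 M →
      (∀ s, M * C.S1 hG.form s = C.S1 hG.form s * M) → M * D = D * M)
    {x : L} (hx : GoodI hG t' C D Dh x)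
    {Γ : End L V} {r : J → V} (hr : RelG 𝒟 C.W C.I t Γ r) :
    ∃ Γ', RelG 𝒟 C.W C.I (t + x • t') Γ' r := by
  have hq := hG.form
  have hSA : ∀ s, IsSA 𝒟.q (Res 𝒟 t s) := Sop_SA 𝒟.arm hG.form (Tt L t) hG.skew
  obtain ⟨G, hGW, hG1, hG2⟩ := h.exists_inv hx.onto
  obtain ⟨uu, huu⟩ := hx.unit
  obtain ⟨g, hgg, hgg'⟩ : ∃ g : End L C.V1, (1 + x • D) * g = 1 ∧ g * (1 + x • D) = 1 :=
    ⟨↑uu⁻¹, by rw [← huu, Units.mul_inv], by rw [← huu, Units.inv_mul]⟩
  have hPG : ∀ w ∈ C.W, C.P hq (G w) = g (C.P hq w) := by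
    intro w hw
    have h1 := h.core1 x (hGW w hw)
    rw [hG1 w hw] at h1
    rw [h1, ← Module.End.mul_apply, hgg']
    rfl
  have hGI : ∀ i ∈ C.I, G i ∈ C.I := fun i hi => by
    apply mem_I_of C hq (hGW i (C.I_le hi))
    rw [hPG i (C.I_le hi), P_I C hq hi, map_zero]
  set M : End L C.V1 := C.res hq Γ with hM
  have hPM : ∀ w ∈ C.W, C.P hq (Γ w) = M (C.P hq w) := fun w hw => P_map C hq hr.mapI hw
  have hMs : IsSA C.q1 M := M_SA C hq hr.sa
  have hMS : ∀ s, M * C.S1 hG.form s = C.S1 hG.form s * M := by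
    intro s
    refine LinearMap.ext fun v => ?_
    have hv := C.V1_le v.2
    have h1 := P_I C hq (hr.comm s v hv)
    rw [map_sub, sub_eq_zero, hPM _ (C.map_W hv), P_S_W C hq hSA s hv,
      P_S_W C hq hSA s (hr.mapW _ hv), hPM _ hv, C.P_coe] at h1
    exact h1
  have hMD := hcen M hMs hMS
  have hMg : M * (1 + x • D) = (1 + x • D) * M := comm_one_add' hMD x
  have hMg' : M * g = g * M := by
    calc M * g = g * (1 + x • D) * M * g := by rw [hgg', one_mul]
      _ = g * (M * (1 + x • D)) * g := by rw [hMg, mul_assoc g]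
      _ = g * M := by rw [mul_assoc, mul_assoc, hgg, mul_one]
  have hgS : ∀ s, g * C.S1 hG.form s = C.S1 hG.form s * g := by
    intro s
    calc g * C.S1 hG.form s = g * C.S1 hG.form s * ((1 + x • D) * g) := by rw [hgg, mul_one]
      _ = g * (C.S1 hG.form s * (1 + x • D)) * g := by simp only [mul_assoc]
      _ = g * ((1 + x • D) * C.S1 hG.form s) * g := by rw [comm1 (hDc s)]
      _ = g * (1 + x • D) * C.S1 hG.form s * g := by simp only [mul_assoc]
      _ = C.S1 hG.form s * g := by rw [hgg', one_mul]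
  have hgs : IsSA C.q1 g := by
    intro a b
    have hs := SA_one_add hDs x
    have e1 : b = (1 + x • D) (g b) := by
      rw [← Module.End.mul_apply, hgg]; rfl
    conv_lhs => rw [e1]
    rw [← hs, ← Module.End.mul_apply, hgg]
    rfl
  have hmW : ∀ u ∈ C.W, (G * Γ : End L V) u ∈ C.W := fun u hu => hGW _ (hr.mapW u hu)
  have hgM : ∀ w ∈ C.W, C.P hq ((G * Γ : End L V) w) = (g * M : End L C.V1) (C.P hq w) := by
    intro w hw
    rw [Module.End.mul_apply, hPG _ (hr.mapW _ hw), hPM _ hw]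
    rfl
  have hSW : ∀ a, ∀ w ∈ C.W, Res 𝒟 (t + x • t') a w ∈ C.W := fun a w hw => by
    rw [h.res_tx hrel x a hw]
    exact C.map_W (h.mem1 x (h.mem1 x hw))
  have hDg : (1 + x • D) ^ 2 * g = 1 + x • D := by
    rw [pow_two, mul_assoc, hgg, mul_one]
  refine ⟨G * Γ, hmW, fun u hu => hGI _ (hr.mapI u hu), fun u hu v hv => ?_, fun a u hu => ?_,
    fun u hu l => ?_, fun a u hu => ?_⟩
  · rw [q_PP C hq (hmW u hu) hv, q_PP C hq hu (hmW v hv), hgM u hu, hgM v hv,
      Module.End.mul_apply, hgs, hMs, ← Module.End.mul_apply M, hMg']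
  · apply mem_I_of C hq (sub_mem (hmW _ (hSW a u hu)) (hSW a _ (hmW _ hu)))
    rw [map_sub, hgM _ (hSW a u hu), P_Resx' h hrel hDc x a hu,
      P_Resx' h hrel hDc x a (hmW _ hu), hgM u hu, ← Module.End.mul_apply,
      ← Module.End.mul_apply, ← LinearMap.sub_apply]
    have e1 : g * M * ((1 + x • D) ^ 2 * C.S1 hG.form a) =
        (1 + x • D) ^ 2 * C.S1 hG.form a * (g * M) := by
      have c1 : Commute g (1 + x • D) := by show g * _ = _ * g; rw [hgg, hgg']
      have c2 : Commute M (1 + x • D) := hMg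
      have c3 : Commute (g * M) ((1 + x • D) ^ 2) := (c1.mul_left c2).pow_right 2
      have c4 : Commute g (C.S1 hG.form a) := hgS a
      have c5 : Commute M (C.S1 hG.form a) := hMS a
      exact (c3.mul_right (c4.mul_left c5)).eq
    rw [e1, sub_self, LinearMap.zero_apply]
  · rw [hr.one u hu l, hq.symm _ ((t + x • t') l), h.rel1 x (hmW u hu), Module.End.mul_apply,
      hG1 _ (hr.mapW u hu), hq.symm]
  · have h1 := hr.two a _ (h.mem1 x hu)
    rw [h.opr_right x r a hu, h.res_tx hrel x a (hmW u hu), Module.End.mul_apply,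
      hG1 _ (hr.mapW u hu)]
    have h2 : Γ ((1 + x • Dh) u) - (1 + x • Dh) (Γ u) ∈ C.I := by
      apply mem_I_of C hq (sub_mem (hr.mapW _ (h.mem1 x hu)) (h.mem1 x (hr.mapW _ hu)))
      rw [map_sub, hPM _ (h.mem1 x hu), h.core1 x hu, h.core1 x (hr.mapW _ hu), hPM _ hu,
        ← Module.End.mul_apply, ← Module.End.mul_apply, hMg, sub_self]
    have h3 := C.map_I hSA (s := a) h2
    rw [map_sub] at h3
    have h4 := add_mem h1 h3
    rwa [sub_add_sub_cancel] at h4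

/-- **`WF` does not depend on the base.** -/
theorem WF_base (hrel : Rel 𝒟 t t') (hDs : IsSA C.q1 D)
    (hDc : ∀ s, D * C.S1 hG.form s = C.S1 hG.form s * D)
    (hcen : ∀ M : End L C.V1, IsSA C.q1 M →
      (∀ s, M * C.S1 hG.form s = C.S1 hG.form s * M) → M * D = D * M)
    {x : L} (hx : GoodI hG t' C D Dh x) (u : J → L) :
    WF 𝒟 (t + x • t') C.W C.I u = WF 𝒟 t C.W C.I u := by
  apply le_antisymm
  · rintro y ⟨r, hr, ⟨Γ, hΓ⟩, hn⟩
    exact ⟨r, hr, ⟨_, h.relG_down hrel hDs hDc hx hΓ⟩, hn⟩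
  · rintro y ⟨r, hr, ⟨Γ, hΓ⟩, hn⟩
    exact ⟨r, hr, h.relG_up hrel hDs hDc hcen hx hΓ, hn⟩

end DHat

/-- **The change of the base of `HHI`.** -/
theorem HHI_base (h : DHat hG t' C D Dh) (hrel : Rel 𝒟 t t') (hDs : IsSA C.q1 D)
    (hDc : ∀ s, D * C.S1 hG.form s = C.S1 hG.form s * D)
    (hcen : ∀ M : End L C.V1, IsSA C.q1 M →
      (∀ s, M * C.S1 hG.form s = C.S1 hG.form s * M) → M * D = D * M)
    {u : J → L} (hC0 : RowC0 𝒟 u t C.W C.I) {x : L} (hx : GoodI hG t' C D Dh x) (s : Fin 3)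
    (k : End L C.V1) : k ∈ HHI hG u (coreI h hrel hx.onto hx.nil) s ↔
      k * (1 + x • D) ∈ HHI hG u C s := by
  have h1 : k ∈ HHI hG u (coreI h hrel hx.onto hx.nil) s ↔
      fam 𝒟 (t + x • t') (Pi.single s (ext0 hG C k)) ∈ WF 𝒟 (t + x • t') C.W C.I u := Iff.rfl
  rw [h1, h.WF_base hrel hDs hDc hcen hx u]
  exact single_base h hDs hC0 x (ext0_Ten hG k) fun w _ => P_ext0' hG k w

/-- `I ⊗ W + W ⊗ I` is stable under the base change -/
theorem Ten_base_rad (h : DHat hG t' C D Dh) {Da : End L V} (hDa : IsAdj 𝒟.q Da Dh)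
    {T : End L V} (hT : T ∈ Ten 𝒟.q C.I C.W ⊔ Ten 𝒟.q C.W C.I) (x : L) :
    T * (1 + x • Da) ∈ Ten 𝒟.q C.I C.W ⊔ Ten 𝒟.q C.W C.I := by
  obtain ⟨A, hA, B, hB, rfl⟩ := Submodule.mem_sup.mp hT
  rw [add_mul]
  refine Submodule.add_mem_sup ⟨fun v => hA.1 _, fun v hv => ?_⟩ ⟨fun v => hB.1 _, fun v hv => ?_⟩
  · rw [Module.End.mul_apply]
    exact hA.2 _ (adj_perp h hDa x hv)
  · rw [Module.End.mul_apply]
    exact hB.2 _ (adj_perpI h hDa x hv)

/-- **(C0) at the second base.** -/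
theorem rowC0_base (h : DHat hG t' C D Dh) (hrel : Rel 𝒟 t t') (hDs : IsSA C.q1 D)
    (hDc : ∀ s, D * C.S1 hG.form s = C.S1 hG.form s * D)
    (hcen : ∀ M : End L C.V1, IsSA C.q1 M →
      (∀ s, M * C.S1 hG.form s = C.S1 hG.form s * M) → M * D = D * M)
    {u : J → L} (hC0 : RowC0 𝒟 u t C.W C.I) {x : L} (hx : GoodI hG t' C D Dh x) :
    RowC0 𝒟 u (t + x • t') C.W C.I := by
  intro a T hT
  rw [h.WF_base hrel hDs hDc hcen hx u]
  obtain ⟨Da, hDa⟩ := exists_adjI hG.form Dh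
  have hTW : T ∈ Ten 𝒟.q C.W C.W := by
    obtain ⟨A, hA, B, hB, rfl⟩ := Submodule.mem_sup.mp hT
    refine add_mem ⟨fun v => C.I_le (hA.1 v), hA.2⟩ ⟨hB.1, fun v hv => hB.2 v ?_⟩
    exact fun i hi => hv i (C.I_le hi)
  have hT' : ∀ b, (Pi.single a T : Fin 3 → End L V) b ∈ Ten 𝒟.q C.W C.W := by
    intro b
    by_cases hb : b = a
    · subst hb; rwa [Pi.single_eq_same]
    · rw [Pi.single_eq_of_ne hb]; exact zero_mem _
  have e1 : (fun b => (Pi.single a T : Fin 3 → End L V) b * (1 + x • Da)) =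
      Pi.single a (T * (1 + x • Da)) := by
    funext b
    by_cases hb : b = a
    · subst hb; rw [Pi.single_eq_same, Pi.single_eq_same]
    · rw [Pi.single_eq_of_ne hb, Pi.single_eq_of_ne hb, zero_mul]
  rw [fam_base h hDa hT' x, e1]
  exact hC0 a _ (Ten_base_rad h hDa hT x)

/-- the ranges of the powers of `g² S` are those of `S` -/
theorem range_sq_pow {E : Type*} [AddCommGroup E] [Module L E] {g g' S : End L E}
    (hgg' : g * g' = 1) (hg'g : g' * g = 1) (hgS : g * S = S * g) (c : ℕ) :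
    LinearMap.range ((g ^ 2 * S) ^ c) = LinearMap.range (S ^ c) := by
  have h2 : Commute (g ^ 2) S := Commute.pow_left hgS 2
  have h3 : (g ^ 2 * S) ^ c = S ^ c * (g ^ 2) ^ c := by rw [h2.mul_pow, (h2.pow_pow c c).eq]
  have h4 : (g ^ 2) ^ c * (g' ^ 2) ^ c = 1 := by
    have h5 : Commute g g' := by show g * g' = g' * g; rw [hgg', hg'g]
    rw [← ((h5.pow_pow 2 2).mul_pow c), ← h5.mul_pow, hgg', one_pow, one_pow]
  apply le_antisymm
  · rintro _ ⟨w, rfl⟩
    exact ⟨((g ^ 2) ^ c) w, by rw [h3]; rfl⟩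
  · rintro _ ⟨w, rfl⟩
    refine ⟨((g' ^ 2) ^ c) w, ?_⟩
    rw [h3, ← Module.End.mul_apply, mul_assoc, h4, mul_one]

/-- **(B) at all good parameters, from (B) at the base `t + x t'`.** -/
theorem der_HHI_base (h : DHat hG t' C D Dh) (hrel : Rel 𝒟 t t') (hDs : IsSA C.q1 D)
    (hDc : ∀ s, D * C.S1 hG.form s = C.S1 hG.form s * D)
    (hcen : ∀ M : End L C.V1, IsSA C.q1 M →
      (∀ s, M * C.S1 hG.form s = C.S1 hG.form s * M) → M * D = D * M)
    {κ : Type*} {P : κ → End L C.V1} (hPD : ∀ i, P i * D = D * P i)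
    {u : J → L} (hC0 : RowC0 𝒟 u t C.W C.I) {x : L} (hx : GoodI hG t' C D Dh x) (s : Fin 3)
    (hB0 : (∀ k : End L C.V1, (∀ i, P i * k * P i = 0) →
        (∀ c : ℕ, ∀ v ∈ LinearMap.range (((1 + x • D) ^ 2 * C.S1 hG.form s) ^ c),
          k v ∈ LinearMap.range (((1 + x • D) ^ 2 * C.S1 hG.form s) ^ c)) →
          k ∈ HHI hG u (coreI h hrel hx.onto hx.nil) s) →
      ∀ Y : End L C.V1, IsSk C.q1 Y → (∀ i, P i * Y * P i = 0) →
      Y * ((1 + x • D) ^ 2 * C.S1 hG.form s) = (1 + x • D) ^ 2 * C.S1 hG.form s * Y →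
      ∀ k : End L C.V1, (∀ i, P i * k * P i = 0) →
        (∀ c : ℕ, ∀ v ∈ LinearMap.range (((1 + x • D) ^ 2 * C.S1 hG.form s) ^ c),
          k v ∈ LinearMap.range (((1 + x • D) ^ 2 * C.S1 hG.form s) ^ c)) →
        k * Y - Y * k ∈ HHI hG u (coreI h hrel hx.onto hx.nil) s)
    (H2 : ∀ k : End L C.V1, (∀ i, P i * k * P i = 0) →
      (∀ c : ℕ, ∀ v ∈ LinearMap.range (C.S1 hG.form s ^ c),
        k v ∈ LinearMap.range (C.S1 hG.form s ^ c)) → k ∈ HHI hG u C s)
    {Y Y' : End L C.V1} (hY : IsSk C.q1 Y) (hYo : ∀ i, P i * Y * P i = 0)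
    (hYS : Y * ((1 + x • D) ^ 2 * C.S1 hG.form s) = (1 + x • D) ^ 2 * C.S1 hG.form s * Y)
    (hY' : (1 + x • D) * Y' = Y * (1 + x • D)) {k : End L C.V1} (hko : ∀ i, P i * k * P i = 0)
    (hkr : ∀ c : ℕ, ∀ v ∈ LinearMap.range (C.S1 hG.form s ^ c),
      k v ∈ LinearMap.range (C.S1 hG.form s ^ c)) :
    k * Y' - Y * k ∈ HHI hG u C s := by
  obtain ⟨uu, huu⟩ := hx.unit
  obtain ⟨g', hgg, hgg'⟩ : ∃ g : End L C.V1, (1 + x • D) * g = 1 ∧ g * (1 + x • D) = 1 :=
    ⟨↑uu⁻¹, by rw [← huu, Units.mul_inv], by rw [← huu, Units.inv_mul]⟩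
  have hgS : (1 + x • D) * C.S1 hG.form s = C.S1 hG.form s * (1 + x • D) := comm1 (hDc s) x
  have hrange := range_sq_pow hgg hgg' hgS
  have hPg : ∀ i, P i * (1 + x • D) = (1 + x • D) * P i := fun i => comm_one_add' (hPD i) x
  have hbase := HHI_base h hrel hDs hDc hcen hC0 hx s
  generalize hgd : (1 + x • D : End L C.V1) = g at *
  have hPg' : ∀ i, P i * g' = g' * P i := fun i => by
    calc P i * g' = g' * g * P i * g' := by rw [hgg', one_mul]
      _ = g' * (P i * g) * g' := by rw [hPg i, mul_assoc g']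
      _ = g' * P i := by rw [mul_assoc, mul_assoc, hgg, mul_one]
  have hgS' : g' * C.S1 hG.form s = C.S1 hG.form s * g' := by
    calc g' * C.S1 hG.form s = g' * C.S1 hG.form s * (g * g') := by rw [hgg, mul_one]
      _ = g' * (C.S1 hG.form s * g) * g' := by simp only [mul_assoc]
      _ = g' * (g * C.S1 hG.form s) * g' := by rw [hgS]
      _ = g' * g * C.S1 hG.form s * g' := by simp only [mul_assoc]
      _ = C.S1 hG.form s * g' := by rw [hgg', one_mul]
  -- operators commuting with `S` preserve the ranges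
  have pres : ∀ {N : End L C.V1}, N * C.S1 hG.form s = C.S1 hG.form s * N → ∀ c : ℕ,
      ∀ v ∈ LinearMap.range (C.S1 hG.form s ^ c), N v ∈ LinearMap.range (C.S1 hG.form s ^ c) := by
    rintro N hN c _ ⟨w, rfl⟩
    have h1 : N * C.S1 hG.form s ^ c = C.S1 hG.form s ^ c * N :=
      (Commute.pow_right (show Commute N (C.S1 hG.form s) from hN) c).eq
    exact ⟨N w, (LinearMap.congr_fun h1 w).symm⟩
  simp only [hrange] at hB0
  have e1 : (k * g' * Y - Y * (k * g')) * g = k * Y' - Y * k := by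
    have e2 : Y' = g' * Y * g := by rw [mul_assoc, ← hY', ← mul_assoc, hgg', one_mul]
    calc (k * g' * Y - Y * (k * g')) * g = k * (g' * Y * g) - Y * k * (g' * g) := by
          rw [sub_mul]; simp only [mul_assoc]
      _ = k * Y' - Y * k := by rw [← e2, hgg', mul_one]
  rw [← e1, ← hbase]
  refine hB0 (fun k' hk'o hk'r => ?_) Y hY hYo hYS (k * g') (fun i => ?_) fun c v hv => ?_
  · rw [hbase]
    refine H2 _ (fun i => ?_) fun c v hv => ?_
    · rw [mul_assoc (P i), mul_assoc k', ← hPg i, ← mul_assoc k', ← mul_assoc (P i),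
        ← mul_assoc (P i), hk'o, zero_mul]
    · exact hk'r c _ (pres hgS c v hv)
  · rw [mul_assoc (P i), mul_assoc k, ← hPg' i, ← mul_assoc k, ← mul_assoc (P i),
      ← mul_assoc (P i), hko, zero_mul]
  · exact hkr c _ (pres hgS' c v hv)

end Vale.Agent.P182.H89
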