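import Vale.Agent.P182.H89.Ker

/-!
# The symmetric commutant if the centre is scalar
-/

namespace Vale.Agent.P182.H89

open Module Vale.Agent.P182.H533

universe u v

section solve

variable {L : Type u} {V : Type v} [Field L] [AddCommGroup V] [Module L V]
  [FiniteDimensional L V] {q : V →ₗ[L] V →ₗ[L] L}

/-- the trace form is nondegenerate -/
theorem trace_nondeg {X : End L V} (h : ∀ c : End L V, LinearMap.trace L V (c * X) = 0) :
    X = 0 := by
  by_contra hX
  obtain ⟨v, hv⟩ : ∃ v, X v ≠ 0 := by
    by_contra hcon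
    push Not at hcon
    exact hX (LinearMap.ext hcon)
  obtain ⟨f, hf⟩ : ∃ f : Dual L V, f (X v) ≠ 0 := by
    by_contra hcon
    push Not at hcon
    exact hv ((Module.forall_dual_apply_eq_zero_iff L _).mp hcon)
  apply hf
  have h1 := h (f.smulRight v)
  have h2 : f.smulRight v * X = (f ∘ₗ X).smulRight v := by
    ext u
    simp
  rw [h2, LinearMap.trace_smulRight] at h1
  exact h1

/-- every functional on endomorphisms is a trace -/
theorem exists_tr (f : End L V →ₗ[L] L) : ∃ B : End L V, ∀ X, f X = LinearMap.trace L V (B * X) := by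
  let τ : End L V →ₗ[L] Dual L (End L V) :=
    { toFun := fun B => LinearMap.trace L V ∘ₗ LinearMap.mulLeft L B
      map_add' := fun a b => by ext X; simp [add_mul]
      map_smul' := fun r a => by ext X; simp }
  have hi : Function.Injective τ := by
    rw [← LinearMap.ker_eq_bot, LinearMap.ker_eq_bot']
    intro B hB
    apply trace_nondeg
    intro c
    rw [LinearMap.trace_mul_comm]
    exact LinearMap.congr_fun hB c
  have hs : Function.Surjective τ := by
    rw [← LinearMap.injective_iff_surjective_of_finrank_eq_finrank]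
    · exact hi
    · exact Subspace.dual_finrank_eq.symm
  obtain ⟨B, hB⟩ := hs f
  exact ⟨B, fun X => by rw [← hB]; rfl⟩

/-- solvability of `[A, S] = R` -/
theorem exists_cmt {S R : End L V}
    (h : ∀ β : End L V, β * S = S * β → LinearMap.trace L V (R * β) = 0) :
    ∃ A : End L V, A * S - S * A = R := by
  let ad : End L V →ₗ[L] End L V := LinearMap.mulRight L S - LinearMap.mulLeft L S
  have had : ∀ A, ad A = A * S - S * A := fun A => rfl
  by_contra hcon
  push Not at hcon
  have hR : R ∉ LinearMap.range ad := by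
    rintro ⟨A, hA⟩
    exact hcon A (by rw [← had, hA])
  obtain ⟨f, hfR, hf⟩ := Submodule.exists_le_ker_of_notMem hR
  obtain ⟨β, hβ⟩ := exists_tr f
  apply hfR
  rw [hβ, LinearMap.trace_mul_comm]
  apply h
  rw [← sub_eq_zero]
  apply trace_nondeg
  intro c
  have h1 : f (c * S - S * c) = 0 := hf ⟨c, had c⟩
  rw [hβ, mul_sub, map_sub] at h1
  have e1 : LinearMap.trace L V (c * (β * S)) = LinearMap.trace L V (β * (S * c)) := by
    rw [LinearMap.trace_mul_comm, mul_assoc]
  have e2 : LinearMap.trace L V (c * (S * β)) = LinearMap.trace L V (β * (c * S)) := by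
    rw [← mul_assoc, LinearMap.trace_mul_comm]
  rw [mul_sub, map_sub, e1, e2, ← neg_sub, h1, neg_zero]

/-- the adjoint -/
theorem exists_adj (hq : IsForm q) (A : End L V) :
    ∃ A' : End L V, ∀ u v, q (A' u) v = q u (A v) := by
  obtain ⟨D, hD⟩ := hq.exists_end (q.compl₂ A)
  exact ⟨D, hD⟩

/-- skew solvability -/
theorem exists_cmt_sk (hq : IsForm q) (h2 : (2 : L) ≠ 0) {S R : End L V} (hS : IsSA q S)
    (hR : IsSA q R)
    (h : ∀ β : End L V, β * S = S * β → LinearMap.trace L V (R * β) = 0) :
    ∃ A : End L V, IsSk q A ∧ A * S - S * A = R := by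
  obtain ⟨A, hA⟩ := exists_cmt h
  obtain ⟨A', hA'⟩ := exists_adj hq A
  have hA'' : ∀ u v, q (A u) v = q u (A' v) := fun u v => by
    rw [hq.symm (A u), hq.symm u, hA']
  have h3 : A' * S - S * A' = -R := by
    refine LinearMap.ext fun u => hq.ext fun w => ?_
    have h4 := congrArg (fun X : End L V => q u (X w)) hA
    simp only [LinearMap.sub_apply, Module.End.mul_apply, map_sub] at h4
    simp only [LinearMap.sub_apply, Module.End.mul_apply, map_sub, LinearMap.neg_apply, map_neg]
    rw [hA', hS, hS, hA', hR, ← h4, neg_sub]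
  refine ⟨(2 : L)⁻¹ • (A - A'), ?_, ?_⟩
  · intro u v
    simp only [LinearMap.smul_apply, LinearMap.sub_apply, map_smul, map_sub, smul_eq_mul]
    rw [hA', hA'']
    ring
  · rw [smul_mul_assoc, mul_smul_comm, ← smul_sub, sub_mul, mul_sub]
    have h5 : A * S - A' * S - (S * A - S * A') = (2 : L) • R := by
      have : A * S - A' * S - (S * A - S * A') = (A * S - S * A) - (A' * S - S * A') := by abel
      rw [this, hA, h3, two_smul, sub_neg_eq_add]
    rw [h5, smul_smul, inv_mul_cancel₀ h2, one_smul]

end solve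

section main

variable {L : Type u} {V : Type v} [Field L] [AddCommGroup V] [Module L V]
  [FiniteDimensional L V]
  {q : V →ₗ[L] V →ₗ[L] L} {S : Fin 3 → End L V} {p : Fin 3 → ℕ}

/-- averaging -/
theorem avg_trace [CharZero L] {T X : End L V} {N : ℕ} (hN : 0 < N) {μ : L} (hμ : μ ≠ 0)
    (hT : T ^ N = μ • (1 : End L V)) (hX : X * T = T * X)
    (h : ∀ c : End L V, c * T = T * c → LinearMap.trace L V (c * X) = 0) : X = 0 := by
  -- the inverse of `T`
  set T' : End L V := μ⁻¹ • T ^ (N - 1) with hT'
  have h1 : T * T' = 1 := by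
    rw [hT', mul_smul_comm, ← pow_succ', Nat.sub_add_cancel hN, hT, smul_smul,
      inv_mul_cancel₀ hμ, one_smul]
  have h2 : T' * T = 1 := by
    rw [hT', smul_mul_assoc, ← pow_succ, Nat.sub_add_cancel hN, hT, smul_smul,
      inv_mul_cancel₀ hμ, one_smul]
  apply trace_nondeg
  intro E
  set c : End L V := ∑ j ∈ Finset.range N, T ^ j * E * T' ^ j with hc
  have h3 : T * c * T' = c := by
    have h4 : ∀ j, T * (T ^ j * E * T' ^ j) * T' = T ^ (j + 1) * E * T' ^ (j + 1) := by
      intro j
      rw [pow_succ' T, pow_succ T']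
      simp only [mul_assoc]
    rw [hc, Finset.mul_sum, Finset.sum_mul, Finset.sum_congr rfl fun j _ => h4 j]
    have h5 := Finset.sum_range_succ (fun j => T ^ j * E * T' ^ j) N
    have h6 := Finset.sum_range_succ' (fun j => T ^ j * E * T' ^ j) N
    have h7 : T ^ N * E * T' ^ N = T ^ 0 * E * T' ^ 0 := by
      have h8 : T' ^ N = μ⁻¹ • (1 : End L V) := by
        have h9 : T ^ N * T' ^ N = 1 := by
          have hcm : Commute T T' := by
            show T * T' = T' * T
            rw [h1, h2]
          rw [← hcm.mul_pow, h1, one_pow]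
        rw [hT, smul_mul_assoc, one_mul] at h9
        rw [← h9, smul_smul, inv_mul_cancel₀ hμ, one_smul]
      rw [hT, h8]
      simp [hμ]
    rw [h6, h7] at h5
    exact add_right_cancel h5
  have h4 : c * T = T * c := by
    calc c * T = (T * c * T') * T := by rw [h3]
      _ = T * c := by rw [mul_assoc, h2, mul_one]
  have h5 := h c h4
  have hXT' : X * T' = T' * X := by
    calc X * T' = (T' * T) * X * T' := by rw [h2, one_mul]
      _ = T' * (X * T) * T' := by rw [hX]; simp only [mul_assoc]
      _ = T' * X := by rw [mul_assoc, mul_assoc, h1, mul_one]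
  have h6 : ∀ j, LinearMap.trace L V (T ^ j * E * T' ^ j * X) = LinearMap.trace L V (E * X) := by
    intro j
    have h7 : T' ^ j * X = X * T' ^ j := by
      have : Commute X T' := hXT'
      exact (this.pow_right j).eq.symm
    rw [mul_assoc, mul_assoc, h7, LinearMap.trace_mul_comm, ← mul_assoc E, mul_assoc (E * X)]
    have h9 : T' ^ j * T ^ j = 1 := by
      have hcm : Commute T' T := by
        show T' * T = T * T'
        rw [h1, h2]
      rw [← hcm.mul_pow, h2, one_pow]
    rw [h9, mul_one]
  rw [hc, Finset.sum_mul, map_sum, Finset.sum_congr rfl fun j _ => h6 j, Finset.sum_const,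
    Finset.card_range, nsmul_eq_mul] at h5
  exact (mul_eq_zero.mp h5).resolve_left (Nat.cast_ne_zero.mpr hN.ne')

/-- **`[E]`** -/
theorem stmtE [CharZero L] (hT1 : StmtT1 q S) : StmtE q S := by
  intro p h hr N P z hC ζ hζ hz M hM hMS
  set m : Fin 3 → ℤ := ![0, 1, 2] with hm
  have hmi : Function.Injective m := by decide
  set a : Fin 3 → L := fun s => (m s : L) with ha
  have hai : Function.Injective a := fun i j hij => hmi (Int.cast_injective hij)
  set T := Ta S a with hT
  have h2 : (2 : L) ≠ 0 := two_ne_zero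
  have hsol : ∀ s, ∃ A : End L V, IsSk q A ∧ A * S s - S s * A = M * S s := by
    intro s
    refine exists_cmt_sk h.form h2 (h.sa s) (IsSA.mul_comm hM (h.sa s) (hMS s)) fun β hβ => ?_
    have h3 : IsNilpotent (M * S s * β) := by
      have h4 : Commute (S s) (M * β) := by
        show S s * (M * β) = M * β * S s
        rw [← mul_assoc, ← hMS, mul_assoc, mul_assoc, hβ]
      have h5 : M * S s * β = S s * (M * β) := by rw [hMS, mul_assoc]
      rw [h5]
      exact h4.isNilpotent_mul_right ⟨p s, h.pow s⟩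
    exact (LinearMap.isNilpotent_trace_of_isNilpotent h3).eq_zero
  choose A hA1 hA2 using hsol
  have hsum : ∑ s, (A s * S s - S s * A s) = 0 := by
    rw [Finset.sum_congr rfl fun s _ => hA2 s, ← Finset.mul_sum, h.sum, mul_zero]
  have hzn : IsNilpotent (z - ζ • (1 : End L V)) := by
    rw [hz, sub_self]
    exact IsNilpotent.zero
  obtain ⟨κ, hκ⟩ := hT1 p h hr N P z hC ζ hzn m hmi A hA1 hsum
  refine ⟨κ, ?_⟩
  have hTN : T ^ N = (P a * ζ) • (1 : End L V) := by
    rw [hT, hC.pow a, hz, smul_smul]
  have hμ : P a * ζ ≠ 0 := mul_ne_zero (hC.ne a hai) hζ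
  have hN : 0 < N := lt_of_lt_of_le (by norm_num) hC.three_le
  have hMT : M * T = T * M := by
    rw [hT, Ta, Finset.mul_sum, Finset.sum_mul]
    refine Finset.sum_congr rfl fun s _ => ?_
    rw [mul_smul_comm, smul_mul_assoc, hMS]
  have h5 : ∑ s, (m s : L) • (A s * S s - S s * A s) = M * T := by
    rw [hT, Ta, Finset.mul_sum]
    refine Finset.sum_congr rfl fun s _ => ?_
    rw [hA2, mul_smul_comm]
  have h6 : (M - κ • (1 : End L V)) * T = 0 := by
    refine avg_trace hN hμ hTN ?_ fun c hc => ?_
    · have hc1 : Commute M T := hMT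
      have hc2 : Commute ((M - κ • (1 : End L V)) * T) T :=
        (hc1.sub_left ((Commute.one_left T).smul_left κ)).mul_left (Commute.refl T)
      exact hc2
    · have h7 := hκ c hc
      rw [h5] at h7
      rw [sub_mul, smul_mul_assoc, one_mul, mul_sub, map_sub, h7, mul_smul_comm, map_smul,
        smul_eq_mul, sub_self]
  rw [← sub_eq_zero]
  have h7 : (M - κ • (1 : End L V)) * T ^ N = 0 := by
    rw [← Nat.sub_add_cancel hN, pow_succ', ← mul_assoc, h6, zero_mul]
  rw [hTN, mul_smul_comm, mul_one] at h7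
  exact (smul_eq_zero.mp h7).resolve_left hμ

omit [FiniteDimensional L V] in
/-- no relations if the centre is scalar and nonzero -/
theorem no_rel' [CharZero L] (h : Nul q S p) {N : ℕ} {P : (Fin 3 → L) → L} {z : End L V}
    (hC : Cen S N P z) {ζ : L} (hζ : ζ ≠ 0) (hz : z = ζ • (1 : End L V)) {v : Fin 3 → V}
    (hv : Kr S v) : v = 0 := by
  have hai : Function.Injective (![0, 1, 2] : Fin 3 → L) := by
    intro i j hij
    fin_cases i <;> fin_cases j <;> simp_all
  refine Kr.eq_zero' h hv hai ?_
  obtain ⟨e1, e2, e3, e4, e5⟩ := hv.rel h.sum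
  set a : Fin 3 → L := ![0, 1, 2] with ha
  have hTv : Ta S a (a 0 • v 0 + a 1 • v 1 + a 2 • v 2) = 0 := by
    rw [map_add, map_add, map_smul, map_smul, map_smul, Ta_apply, Ta_apply, Ta_apply, hv.1 0,
      hv.1 1, hv.1 2, e1, e2, e3, e4, e5]
    module
  have hN : 0 < N := lt_of_lt_of_le (by norm_num) hC.three_le
  have h1 : (Ta S a ^ N) (a 0 • v 0 + a 1 • v 1 + a 2 • v 2) = 0 := by
    rw [← Nat.sub_add_cancel hN, pow_succ, Module.End.mul_apply, hTv, map_zero]
  rw [hC.pow a, hz, smul_smul, LinearMap.smul_apply] at h1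
  exact (smul_eq_zero.mp h1).resolve_left (mul_ne_zero (hC.ne a hai) hζ)

end main

end Vale.Agent.P182.H89
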