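import Vale.Agent.P182.H89.Red
import Vale.Agent.P182.H291.PermN
import Vale.Agent.P182.H922.Dicho

/-!
# The structure theorem from `[T]` and `[S]`
-/

namespace Vale.Agent.P182.H89

open Module Vale.Agent.P182.H533 Polynomial

universe u v

section fam

variable {L : Type u} {V : Type v} [Field L] [AddCommGroup V] [Module L V]
  {q : V →ₗ[L] V →ₗ[L] L} {S : Fin 3 → End L V} {p : Fin 3 → ℕ} {e : End L V}

/-- a complete family of orthogonal idempotents spanning the symmetric commutant -/
structure Fam (q : V →ₗ[L] V →ₗ[L] L) (S : Fin 3 → End L V) {ι : Type} [Fintype ι]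
    [DecidableEq ι] (e : ι → End L V) : Prop where
  sa : ∀ i, IsSA q (e i)
  comm : ∀ i s, e i * S s = S s * e i
  mul : ∀ i j, e i * e j = if i = j then e i else 0
  sum : ∑ i, e i = 1
  span : ∀ M, IsSA q M → (∀ s, M * S s = S s * M) → ∃ κ : ι → L, M = ∑ i, κ i • e i

theorem Fam.fin {ι : Type} [Fintype ι] [DecidableEq ι] {e : ι → End L V} (h : Fam q S e) :
    ∃ (m : ℕ) (e : Fin m → End L V), (∀ i, IsSA q (e i)) ∧ (∀ i s, e i * S s = S s * e i) ∧
    (∀ i j, e i * e j = if i = j then e i else 0) ∧ ∑ i, e i = 1 ∧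
    ∀ M, IsSA q M → (∀ s, M * S s = S s * M) → ∃ κ : Fin m → L, M = ∑ i, κ i • e i := by
  refine ⟨Fintype.card ι, fun i => e ((Fintype.equivFin ι).symm i), fun i => h.sa _,
    fun i s => h.comm _ s, fun i j => ?_, ?_, fun M hM hMS => ?_⟩
  · rw [h.mul]
    by_cases hij : i = j
    · rw [if_pos hij, if_pos (by rw [hij])]
    · rw [if_neg hij, if_neg (fun h' => hij ((Fintype.equivFin ι).symm.injective h'))]
  · rw [← h.sum]
    exact Equiv.sum_comp (Fintype.equivFin ι).symm e
  · obtain ⟨κ, hκ⟩ := h.span M hM hMS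
    refine ⟨fun i => κ ((Fintype.equivFin ι).symm i), ?_⟩
    rw [hκ]
    exact (Equiv.sum_comp (Fintype.equivFin ι).symm (fun i => κ i • e i)).symm

theorem Fam.mk' {m : ℕ} {e : Fin m → End L V} (h : (∀ i, IsSA q (e i)) ∧
    (∀ i s, e i * S s = S s * e i) ∧
    (∀ i j, e i * e j = if i = j then e i else 0) ∧ ∑ i, e i = 1 ∧
    ∀ M, IsSA q M → (∀ s, M * S s = S s * M) → ∃ κ : Fin m → L, M = ∑ i, κ i • e i) :
    Fam q S e :=
  ⟨h.1, h.2.1, h.2.2.1, h.2.2.2.1, h.2.2.2.2⟩

theorem lW_orth (he : e * e = e) (Y : End L (LinearMap.range e))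
    (Z : End L (LinearMap.range (1 - e))) : lW e Y * lW (1 - e) Z = 0 ∧
      lW (1 - e) Z * lW e Y = 0 := by
  have he' := compl_idem he
  constructor
  · refine LinearMap.ext fun v => ?_
    rw [Module.End.mul_apply, lW_apply, lW_apply]
    have h1 : e.rangeRestrict ((Z ((1 - e).rangeRestrict v) : LinearMap.range (1 - e)) : V) = 0 := by
      apply Subtype.ext
      show e ((Z ((1 - e).rangeRestrict v) : LinearMap.range (1 - e)) : V) = 0
      rw [← idem_apply he' (Z _).2, ← Module.End.mul_apply, mul_sub, mul_one, he, sub_self]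
      rfl
    rw [h1, map_zero]
    rfl
  · refine LinearMap.ext fun v => ?_
    rw [Module.End.mul_apply, lW_apply, lW_apply]
    have h1 : (1 - e).rangeRestrict ((Y (e.rangeRestrict v) : LinearMap.range e) : V) = 0 := by
      apply Subtype.ext
      show (1 - e) ((Y (e.rangeRestrict v) : LinearMap.range e) : V) = 0
      rw [LinearMap.sub_apply, idem_apply he (Y _).2, Module.End.one_apply, sub_self]
    rw [h1, map_zero]
    rfl

/-- the sum of two families -/
theorem Fam.union {ι κ : Type} [Fintype ι] [DecidableEq ι] [Fintype κ] [DecidableEq κ]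
    (he : e * e = e) (hes : IsSA q e) (hc : ∀ s, e * S s = S s * e)
    (hcent : ∀ M, IsSA q M → (∀ s, M * S s = S s * M) → e * M = M * e)
    {f : ι → End L (LinearMap.range e)} {g : κ → End L (LinearMap.range (1 - e))}
    (hf : Fam (qW q e) (fun s => cW e (S s)) f)
    (hg : Fam (qW q (1 - e)) (fun s => cW (1 - e) (S s)) g) :
    Fam q S (Sum.elim (fun i => lW e (f i)) (fun i => lW (1 - e) (g i))) := by
  have he' := compl_idem he
  have hes' := compl_SA hes
  have hc' : ∀ s, (1 - e) * S s = S s * (1 - e) := fun s => compl_comm (hc s)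
  refine ⟨?_, ?_, ?_, ?_, ?_⟩
  · rintro (i | i)
    · exact lW_SA he hes (hf.sa i)
    · exact lW_SA he' hes' (hg.sa i)
  · rintro (i | i) s
    · show lW e (f i) * S s = S s * lW e (f i)
      rw [lW_mul_right he _ (hc s), lW_mul_left he _ (hc s), hf.comm i s]
    · show lW (1 - e) (g i) * S s = S s * lW (1 - e) (g i)
      rw [lW_mul_right he' _ (hc' s), lW_mul_left he' _ (hc' s), hg.comm i s]
  · rintro (i | i) (j | j)
    · show lW e (f i) * lW e (f j) = _
      rw [← lW_mul he, hf.mul]
      by_cases hij : i = j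
      · rw [if_pos hij, if_pos (by rw [hij])]
        rfl
      · rw [if_neg hij, if_neg (by simpa using hij), lW_zero]
    · show lW e (f i) * lW (1 - e) (g j) = _
      rw [(lW_orth he _ _).1, if_neg (by simp)]
    · show lW (1 - e) (g i) * lW e (f j) = _
      rw [(lW_orth he _ _).2, if_neg (by simp)]
    · show lW (1 - e) (g i) * lW (1 - e) (g j) = _
      rw [← lW_mul he', hg.mul]
      by_cases hij : i = j
      · rw [if_pos hij, if_pos (by rw [hij])]
        rfl
      · rw [if_neg hij, if_neg (by simpa using hij), lW_zero]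
  · rw [Fintype.sum_sum_type]
    simp only [Sum.elim_inl, Sum.elim_inr]
    rw [← lW_sum, ← lW_sum, hf.sum, hg.sum, lW_one, lW_one]
    abel
  · intro M hM hMS
    have hMe := hcent M hM hMS
    have hMe' : (1 - e) * M = M * (1 - e) := compl_comm hMe
    obtain ⟨a, ha⟩ := hf.span (cW e M) (cW_SA hes he hM) (fun s => by
      rw [← cW_mul he hMe, ← cW_mul he (hc s), hMS])
    obtain ⟨b, hb⟩ := hg.span (cW (1 - e) M) (cW_SA hes' he' hM) (fun s => by
      rw [← cW_mul he' hMe', ← cW_mul he' (hc' s), hMS])
    refine ⟨Sum.elim a b, ?_⟩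
    rw [Fintype.sum_sum_type]
    simp only [Sum.elim_inl, Sum.elim_inr]
    have h1 : ∑ x, a x • lW e (f x) = e * M := by
      rw [← lW_cW he hMe, ha, lW_sum]
      rfl
    have h2 : ∑ x, b x • lW (1 - e) (g x) = (1 - e) * M := by
      rw [← lW_cW he' hMe', hb, lW_sum]
      rfl
    rw [h1, h2, ← add_mul]
    have h3 : e + (1 - e) = 1 := by abel
    rw [h3, one_mul]

theorem Kr.red (he : e * e = e) (hc : ∀ s, e * S s = S s * e) {v : Fin 3 → V} (hv : Kr S v) :
    Kr (fun s => cW e (S s)) (fun s => e.rangeRestrict (v s)) := by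
  refine ⟨fun s => Subtype.ext ?_, ?_⟩
  · rw [cW_coe' he (hc s)]
    show S s (e (v s)) = 0
    rw [← Module.End.mul_apply, ← hc s, Module.End.mul_apply, hv.1 s, map_zero]
  · rw [← map_sum, hv.2, map_zero]

end fam

section main

/-- **The structure theorem, from `[T]` and `[S]`.** -/
theorem struct_of {L : Type u} [Field L] [IsAlgClosed L] [CharZero L]
    (hT1 : ∀ (V : Type v) [AddCommGroup V] [Module L V] [FiniteDimensional L V]
      (q : V →ₗ[L] V →ₗ[L] L) (S : Fin 3 → End L V), StmtT1 q S)
    (hT2 : ∀ (V : Type v) [AddCommGroup V] [Module L V] [FiniteDimensional L V]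
      (q : V →ₗ[L] V →ₗ[L] L) (S : Fin 3 → End L V), StmtT2 q S)
    (hS : ∀ (V : Type v) [AddCommGroup V] [Module L V] [FiniteDimensional L V]
      (q : V →ₗ[L] V →ₗ[L] L) (S : Fin 3 → End L V), StmtS q S) :
    ∀ (d : ℕ) (V : Type v) [AddCommGroup V] [Module L V] [FiniteDimensional L V]
      (q : V →ₗ[L] V →ₗ[L] L) (S : Fin 3 → End L V) (p : Fin 3 → ℕ), finrank L V ≤ d →
      Nul q S p → RealS q S → StructS q S := by
  classical
  intro d
  induction d with
  | zero =>
    intro V _ _ _ q S p hd h hr
    have h0 : finrank L V = 0 := Nat.le_zero.mp hd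
    have hsub : Subsingleton V := Module.finrank_zero_iff.mp h0
    refine ⟨⟨0, Fin.elim0, fun i => i.elim0, fun i => i.elim0, fun i => i.elim0, ?_, ?_⟩, ?_⟩
    · exact LinearMap.ext fun x => Subsingleton.elim _ _
    · intro M _ _
      exact ⟨Fin.elim0, LinearMap.ext fun x => Subsingleton.elim _ _⟩
    · intro v _
      exact Subsingleton.elim _ _
  | succ d ih =>
    intro V _ _ _ q S p hd h hr
    by_cases hV : finrank L V = 0
    · have hsub : Subsingleton V := Module.finrank_zero_iff.mp hV
      refine ⟨⟨0, Fin.elim0, fun i => i.elim0, fun i => i.elim0, fun i => i.elim0, ?_, ?_⟩, ?_⟩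
      · exact LinearMap.ext fun x => Subsingleton.elim _ _
      · intro M _ _
        exact ⟨Fin.elim0, LinearMap.ext fun x => Subsingleton.elim _ _⟩
      · intro v _
        exact Subsingleton.elim _ _
    -- the sorted operators
    obtain ⟨σ, hσ⟩ := H291.Nul.exists_perm h hV
    have h' := H291.Nul.comp h σ
    have hr' := H291.RealS.comp hr σ
    obtain ⟨N, P, z, Q, G, hC, hG⟩ := H291.Nul.stmtC h' hσ
    have hcomm : ∀ M : End L V, (∀ s, M * S s = S s * M) → M * z = z * M := by
      intro M hM
      have hai : Function.Injective (![0, 1, 2] : Fin 3 → L) := by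
        intro i j hij
        fin_cases i <;> fin_cases j <;> simp_all
      have h1 : z = (P ![0, 1, 2])⁻¹ • Ta (S ∘ σ) ![0, 1, 2] ^ N := by
        rw [hC.pow, smul_smul, inv_mul_cancel₀ (hC.ne _ hai), one_smul]
      have h2 : Commute M (Ta (S ∘ σ) ![0, 1, 2]) := by
        show M * Ta (S ∘ σ) ![0, 1, 2] = Ta (S ∘ σ) ![0, 1, 2] * M
        rw [Ta, Finset.mul_sum, Finset.sum_mul]
        refine Finset.sum_congr rfl fun s _ => ?_
        rw [mul_smul_comm, smul_mul_assoc, Function.comp_apply, hM]
      rw [h1]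
      exact ((h2.pow_right N).smul_right _).eq
    have hzSA : IsSA q z := by
      have hai : Function.Injective (![0, 1, 2] : Fin 3 → L) := by
        intro i j hij
        fin_cases i <;> fin_cases j <;> simp_all
      have h1 : z = (P ![0, 1, 2])⁻¹ • Ta (S ∘ σ) ![0, 1, 2] ^ N := by
        rw [hC.pow, smul_smul, inv_mul_cancel₀ (hC.ne _ hai), one_smul]
      rw [h1]
      exact IsSA.smul (IsSA.pow (Ta_SA h'.sa _) _) _
    have hzS : ∀ s, z * S s = S s * z := by
      intro s
      have := hC.comm (σ.symm s)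
      simpa using this
    rcases H922.nilp_or_idem z with ⟨ζ, hζ⟩ | ⟨f, hf1, hf2, hf3⟩
    · -- one eigenvalue
      by_cases hζ0 : ζ = 0
      · rw [hζ0, zero_smul, sub_zero] at hζ
        exact absurd (stmtK (hT2 V q (S ∘ σ)) _ h' hr' N P z Q G hC hG hζ) hV
      · have hz := hS V q (S ∘ σ) _ h' hr' N P z hC ζ hζ0 hζ
        constructor
        · refine Fam.fin (ι := Unit) (e := fun _ => 1) ⟨fun _ => IsSA.one, fun _ s => ?_,
            fun _ _ => ?_, ?_, ?_⟩
          · rw [one_mul, mul_one]
          · rw [one_mul, if_pos rfl]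
          · simp
          · intro M hM hMS
            obtain ⟨κ, hκ⟩ := stmtE (hT1 V q (S ∘ σ)) _ h' hr' N P z hC ζ hζ0 hz M hM
              (fun s => hMS (σ s))
            exact ⟨fun _ => κ, by simpa using hκ⟩
        · intro v hv
          have hv' : Kr (S ∘ σ) (v ∘ σ) := by
            refine ⟨fun s => hv.1 (σ s), ?_⟩
            rw [← hv.2]
            exact Equiv.sum_comp σ v
          have h1 := no_rel' h' hC hζ0 hz hv'
          funext s
          have := congrFun h1 (σ.symm s)
          simpa using this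
    · -- an idempotent
      set e : End L V := aeval z f with hedef
      have he : e * e = e := hf1
      have hes : IsSA q e := H922.aeval_SA hzSA f
      have hcomm' : ∀ M : End L V, (∀ s, M * S s = S s * M) → e * M = M * e := by
        intro M hM
        have h1 : Commute z M := (hcomm M hM).symm
        have h2 : e ∈ Algebra.adjoin L {z} := Polynomial.aeval_mem_adjoin_singleton L z
        have h3 : Algebra.adjoin L {z} ≤ Subalgebra.centralizer L {M} := by
          rw [Algebra.adjoin_le_iff, Set.singleton_subset_iff, SetLike.mem_coe,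
            Subalgebra.mem_centralizer_iff]
          intro g hg
          rw [Set.mem_singleton_iff.mp hg]
          exact h1.symm
        exact ((Subalgebra.mem_centralizer_iff L).mp (h3 h2) _ rfl).symm
      have hc : ∀ s, e * S s = S s * e := by
        intro s
        have h2 : e ∈ Algebra.adjoin L {z} := Polynomial.aeval_mem_adjoin_singleton L z
        have h3 : Algebra.adjoin L {z} ≤ Subalgebra.centralizer L {S s} := by
          rw [Algebra.adjoin_le_iff, Set.singleton_subset_iff, SetLike.mem_coe,
            Subalgebra.mem_centralizer_iff]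
          intro g hg
          rw [Set.mem_singleton_iff.mp hg]
          exact (hzS s).symm
        exact ((Subalgebra.mem_centralizer_iff L).mp (h3 h2) _ rfl).symm
      have he' := compl_idem he
      have hes' := compl_SA hes
      have hc' : ∀ s, (1 - e) * S s = S s * (1 - e) := fun s => compl_comm (hc s)
      have hfr := finrank_range_add_compl he
      have hpos1 : 0 < finrank L (LinearMap.range e) := by
        rw [Nat.pos_iff_ne_zero]
        intro h0
        apply hf2
        rw [← LinearMap.range_eq_bot]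
        exact Submodule.finrank_eq_zero.mp h0
      have hpos2 : 0 < finrank L (LinearMap.range (1 - e)) := by
        rw [Nat.pos_iff_ne_zero]
        intro h0
        have h1 : 1 - e = 0 := by
          rw [← LinearMap.range_eq_bot]
          exact Submodule.finrank_eq_zero.mp h0
        exact hf3 (sub_eq_zero.mp h1).symm
      obtain ⟨⟨m1, f1, hf⟩, hk1⟩ := ih _ _ _ p (by omega) (h.red he hes hc) (hr.red he hes hc)
      obtain ⟨⟨m2, f2, hg⟩, hk2⟩ := ih _ _ _ p (by omega) (h.red he' hes' hc') (hr.red he' hes' hc')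
      refine ⟨Fam.fin (Fam.union he hes hc (fun M _ hM => hcomm' M hM) (Fam.mk' hf)
        (Fam.mk' hg)), ?_⟩
      intro v hv
      have h1 := hk1 _ (hv.red he hc)
      have h2 := hk2 _ (hv.red he' hc')
      funext s
      have h3 : e (v s) = 0 := congrArg Subtype.val (congrFun h1 s)
      have h4 : (1 - e) (v s) = 0 := congrArg Subtype.val (congrFun h2 s)
      rw [LinearMap.sub_apply, h3, sub_zero] at h4
      exact h4

end main

end Vale.Agent.P182.H89
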