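import Vale.Agent.P182.H89.Struct
import Mathlib.LinearAlgebra.Trace
import Mathlib.LinearAlgebra.FiniteDimensional.Lemmas
import Mathlib.Tactic.FieldSimp

/-!
# The centre is not nilpotent
-/

namespace Vale.Agent.P182.H89

open Module Vale.Agent.P182.H533

universe u v

section basic

variable {L : Type u} {V : Type v} [Field L] [AddCommGroup V] [Module L V]
  {q : V →ₗ[L] V →ₗ[L] L} {S : Fin 3 → End L V} {p : Fin 3 → ℕ}

theorem Ta_apply (S : Fin 3 → End L V) (a : Fin 3 → L) (v : V) :
    Ta S a v = a 0 • S 0 v + a 1 • S 1 v + a 2 • S 2 v := by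
  rw [Ta, Fin.sum_univ_three]
  rfl

theorem IsSA.mul_comm {A B : End L V} (hA : IsSA q A) (hB : IsSA q B) (h : A * B = B * A) :
    IsSA q (A * B) := by
  intro u v
  rw [h, Module.End.mul_apply, hB, hA, ← Module.End.mul_apply]
  rw [h]

theorem IsSA.pow {A : End L V} (hA : IsSA q A) (n : ℕ) : IsSA q (A ^ n) := by
  induction n with
  | zero => intro u v; simp
  | succ n ih =>
    rw [pow_succ]
    exact IsSA.mul_comm ih hA (by rw [← pow_succ, ← pow_succ'])

theorem IsSA.add {A B : End L V} (hA : IsSA q A) (hB : IsSA q B) : IsSA q (A + B) := by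
  intro u v
  rw [LinearMap.add_apply, LinearMap.add_apply, map_add, map_add, LinearMap.add_apply, hA, hB]

theorem IsSA.smul {A : End L V} (hA : IsSA q A) (r : L) : IsSA q (r • A) := by
  intro u v
  rw [LinearMap.smul_apply, LinearMap.smul_apply, map_smul, map_smul, LinearMap.smul_apply, hA]

theorem IsSA.one : IsSA q (1 : End L V) := fun _ _ => rfl

theorem Ta_SA (hS : ∀ s, IsSA q (S s)) (a : Fin 3 → L) : IsSA q (Ta S a) := by
  rw [Ta, Fin.sum_univ_three]
  exact IsSA.add (IsSA.add (IsSA.smul (hS 0) _) (IsSA.smul (hS 1) _)) (IsSA.smul (hS 2) _)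

/-- the kernels have trivial intersection -/
theorem Nul.inf (h : Nul q S p) {v : V} (hv : ∀ s, S s v = 0) : v = 0 := by
  apply h.form.nondeg
  intro u
  have hu : u ∈ ⨆ s, LinearMap.range (S s) := by rw [h.span]; trivial
  refine Submodule.iSup_induction (fun s => LinearMap.range (S s)) (motive := fun u => q v u = 0)
    hu ?_ ?_ ?_
  · rintro s _ ⟨x, rfl⟩
    rw [← h.sa, hv, map_zero, LinearMap.zero_apply]
  · exact map_zero _
  · intro x y hx hy
    rw [map_add, hx, hy, add_zero]

/-- the six vectors `S_i v_j` -/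
theorem Kr.rel (hsum : ∑ s, S s = 0) {v : Fin 3 → V} (hv : Kr S v) :
    S 2 (v 0) = - S 1 (v 0) ∧ S 0 (v 1) = - S 1 (v 0) ∧ S 2 (v 1) = S 1 (v 0) ∧
      S 0 (v 2) = S 1 (v 0) ∧ S 1 (v 2) = - S 1 (v 0) := by
  have h1 : ∀ x, S 0 x + S 1 x + S 2 x = 0 := by
    intro x
    have := LinearMap.congr_fun hsum x
    rw [Fin.sum_univ_three] at this
    exact this
  have h2 : v 0 + v 1 + v 2 = 0 := by
    have := hv.2
    rwa [Fin.sum_univ_three] at this
  have h3 : ∀ s, S s (v 0) + S s (v 1) + S s (v 2) = 0 := by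
    intro s
    rw [← map_add, ← map_add, h2, map_zero]
  have a0 := h1 (v 0)
  have a1 := h1 (v 1)
  have a2 := h1 (v 2)
  have b0 := h3 0
  have b1 := h3 1
  have b2 := h3 2
  rw [hv.1 0, zero_add] at a0 b0
  rw [hv.1 1, add_zero] at a1 b1
  rw [hv.1 2, add_zero] at a2 b2
  have e1 : S 2 (v 0) = - S 1 (v 0) := (neg_eq_of_add_eq_zero_right a0).symm
  have e2 : S 1 (v 2) = - S 1 (v 0) := (neg_eq_of_add_eq_zero_right b1).symm
  have e3 : S 2 (v 1) = S 1 (v 0) := by
    have := (neg_eq_of_add_eq_zero_right b2).symm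
    rw [this, e1, neg_neg]
  have e4 : S 0 (v 1) = - S 1 (v 0) := by
    rw [← e3]; exact eq_neg_of_add_eq_zero_left a1
  have e5 : S 0 (v 2) = S 1 (v 0) := by
    have := (neg_eq_of_add_eq_zero_right b0).symm
    rw [this, e4, neg_neg]
  exact ⟨e1, e4, e3, e5, e2⟩

/-- `v` vanishes if `S_2 v_1` does -/
theorem Kr.eq_zero (h : Nul q S p) {v : Fin 3 → V} (hv : Kr S v) (hw : S 1 (v 0) = 0) : v = 0 := by
  obtain ⟨e1, e2, e3, e4, e5⟩ := hv.rel h.sum
  rw [hw] at e1 e2 e3 e4 e5
  rw [neg_zero] at e1 e2 e5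
  funext j
  refine h.inf fun s => ?_
  fin_cases j <;> fin_cases s
  · exact hv.1 0
  · exact hw
  · exact e1
  · exact e2
  · exact hv.1 1
  · exact e3
  · exact e4
  · exact e5
  · exact hv.1 2

/-- `v` vanishes if `v(b)` does -/
theorem Kr.eq_zero' (h : Nul q S p) {v : Fin 3 → V} (hv : Kr S v) {b : Fin 3 → L}
    (hb : Function.Injective b) (hw : b 0 • v 0 + b 1 • v 1 + b 2 • v 2 = 0) : v = 0 := by
  apply hv.eq_zero h
  obtain ⟨e1, e2, e3, e4, e5⟩ := hv.rel h.sum
  have h1 := congrArg (S 1) hw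
  rw [map_add, map_add, map_smul, map_smul, map_smul, hv.1 1, e5, map_zero, smul_zero, add_zero,
    smul_neg, ← sub_eq_add_neg, ← sub_smul] at h1
  refine (smul_eq_zero.mp h1).resolve_left fun h' => ?_
  have := hb (sub_eq_zero.mp h')
  exact absurd this (by decide)

end basic

section main

variable {L : Type u} {V : Type v} [Field L] [AddCommGroup V] [Module L V]
  [FiniteDimensional L V]
  {q : V →ₗ[L] V →ₗ[L] L} {S : Fin 3 → End L V} {p : Fin 3 → ℕ}

/-- the relations as a submodule -/
def KrM (S : Fin 3 → End L V) : Submodule L (Fin 3 → V) where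
  carrier := {v | Kr S v}
  add_mem' := by
    rintro u v ⟨h1, h2⟩ ⟨h3, h4⟩
    refine ⟨fun s => ?_, ?_⟩
    · rw [Pi.add_apply, map_add, h1, h3, add_zero]
    · simp only [Pi.add_apply]
      rw [Finset.sum_add_distrib, h2, h4, add_zero]
  zero_mem' := ⟨fun s => map_zero _, by simp⟩
  smul_mem' := by
    rintro r v ⟨h1, h2⟩
    refine ⟨fun s => ?_, ?_⟩
    · rw [Pi.smul_apply, map_smul, h1, smul_zero]
    · simp only [Pi.smul_apply]
      rw [← Finset.smul_sum, h2, smul_zero]

omit [FiniteDimensional L V] in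
/-- a weighted commutator -/
theorem comm_Tb (hsum : ∑ s, S s = 0) {B c : End L V} {a b : Fin 3 → L} {x : L}
    (hB : ∀ s, (B - a s • c) * S s = S s * (B - a s • c)) (hb : ∀ s, b s * (a s - x) = 1) :
    (B - x • c) * Ta S b = Ta S b * (B - x • c) := by
  have h1 : ∀ s, b s • ((B - x • c) * S s - S s * (B - x • c)) = c * S s - S s * c := by
    intro s
    have h2 : (B - x • c) * S s - S s * (B - x • c) =
        (a s - x) • (c * S s - S s * c) := by
      have h3 := hB s
      have h4 : B - x • c = (B - a s • c) + (a s - x) • c := by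
        rw [sub_smul]; abel
      rw [h4, add_mul, mul_add, h3, smul_mul_assoc, mul_smul_comm, smul_sub]
      abel
    rw [h2, smul_smul, hb, one_smul]
  have h5 : (B - x • c) * Ta S b - Ta S b * (B - x • c) = 0 := by
    have h6 : (B - x • c) * Ta S b - Ta S b * (B - x • c) =
        ∑ s, b s • ((B - x • c) * S s - S s * (B - x • c)) := by
      rw [Ta, Finset.mul_sum, Finset.sum_mul, ← Finset.sum_sub_distrib]
      refine Finset.sum_congr rfl fun s _ => ?_
      rw [mul_smul_comm, smul_mul_assoc, smul_sub]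
    rw [h6, Finset.sum_congr rfl fun s _ => h1 s, Finset.sum_sub_distrib, ← Finset.mul_sum,
      ← Finset.sum_mul, hsum, mul_zero, zero_mul, sub_zero]
  exact sub_eq_zero.mp h5

/-- no relations -/
theorem no_rel [CharZero L] (hT2 : StmtT2 q S) (h : Nul q S p) (hr : RealS q S) {N : ℕ}
    {P : (Fin 3 → L) → L} {z : End L V} {Q : (Fin 3 → L) → L} {G : End L V} (hC : Cen S N P z)
    (hG : Chn S N Q G) (hz : IsNilpotent z) : KrM S = ⊥ := by
  classical
  set m : Fin 3 → ℤ := ![0, 1, 2] with hm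
  have hmi : Function.Injective m := by decide
  set a : Fin 3 → L := fun s => (m s : L) with ha
  have hai : Function.Injective a := fun i j hij => hmi (Int.cast_injective hij)
  set T := Ta S a with hT
  set c := T ^ (N - 1) with hc
  have hN := hC.three_le
  have hTN : T ^ N = P a • z := hC.pow a
  have hcT : c * T = T ^ N := by
    rw [hc, ← pow_succ]
    congr 1; omega
  have hcT' : c * T = T * c := by rw [hc, ← pow_succ, ← pow_succ']
  have htr : LinearMap.trace L V (c * T) = 0 := by
    rw [hcT, hTN, map_smul, (LinearMap.isNilpotent_trace_of_isNilpotent hz).eq_zero, smul_zero]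
  obtain ⟨B, hBs, hB⟩ := hT2 p h hr N P z hC 0 (by simpa using hz) m hmi c
    (IsSA.pow (Ta_SA h.sa a) _) hcT' htr
  have hB' : ∀ s v, B (S s v) - a s • c (S s v) = S s (B v) - a s • S s (c v) := by
    intro s v
    have := LinearMap.congr_fun (hB s) v
    simp only [Module.End.mul_apply, LinearMap.sub_apply, LinearMap.smul_apply, map_sub,
      map_smul] at this
    exact this
  -- T on the relations
  have hTv : ∀ v, Kr S v → T (a 0 • v 0 + a 1 • v 1 + a 2 • v 2) = 0 := by
    intro v hv
    obtain ⟨e1, e2, e3, e4, e5⟩ := hv.rel h.sum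
    rw [map_add, map_add, map_smul, map_smul, map_smul, hT, Ta_apply, Ta_apply, Ta_apply, hv.1 0,
      hv.1 1, hv.1 2, e1, e2, e3, e4, e5]
    module
  have hTv0 : ∀ v, Kr S v → T (v 0) = (a 1 - a 2) • S 1 (v 0) := by
    intro v hv
    obtain ⟨e1, e2, e3, e4, e5⟩ := hv.rel h.sum
    rw [hT, Ta_apply, hv.1 0, e1]
    module
  -- the operator Φ
  have hsum : ∀ x, S 0 x + S 1 x + S 2 x = 0 := by
    intro x
    have := LinearMap.congr_fun h.sum x
    rw [Fin.sum_univ_three] at this
    exact this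
  have hΦm : ∀ v, Kr S v → Kr S (fun s => S s (G (S 1 (v 0)))) := by
    intro v hv
    refine ⟨fun s => hG.sq v hv s, ?_⟩
    rw [Fin.sum_univ_three]
    exact hsum _
  have hcw : ∀ v, Kr S v → c (S 1 (v 0)) = 0 := by
    intro v hv
    have h1 : c = T * T ^ (N - 2) := by
      rw [hc, ← pow_succ']
      congr 1; omega
    rw [h1, Module.End.mul_apply, hT, hG.pow v hv, map_smul, Ta_apply S a (G (S 1 (v 0)))]
    have h2 := hTv _ (hΦm v hv)
    rw [hT] at h2
    rw [h2, smul_zero]
  have hcv0 : ∀ v, Kr S v → c (v 0) = ((a 1 - a 2) * Q a) •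
      (a 0 • S 0 (G (S 1 (v 0))) + a 1 • S 1 (G (S 1 (v 0))) + a 2 • S 2 (G (S 1 (v 0)))) := by
    intro v hv
    have h1 : c = T ^ (N - 2) * T := by
      rw [hc, ← pow_succ]
      congr 1; omega
    rw [h1, Module.End.mul_apply, hTv0 v hv, map_smul, hT, hG.pow v hv, smul_smul, Ta_apply]
  have hcva : ∀ v, Kr S v → c (a 0 • v 0 + a 1 • v 1 + a 2 • v 2) = 0 := by
    intro v hv
    have h1 : c = T ^ (N - 2) * T := by
      rw [hc, ← pow_succ]
      congr 1; omega
    rw [h1, Module.End.mul_apply, hTv v hv, map_zero]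
  have hβm : ∀ v, Kr S v → Kr S (fun s => B (v s) - a s • c (v s)) := by
    intro v hv
    refine ⟨fun s => ?_, ?_⟩
    · show S s (B (v s) - a s • c (v s)) = 0
      rw [map_sub, map_smul, ← hB' s (v s), hv.1 s, map_zero, map_zero, smul_zero, sub_zero]
    · rw [Fin.sum_univ_three]
      have h1 := hcva v hv
      have h2 : v 0 + v 1 + v 2 = 0 := by
        have := hv.2
        rwa [Fin.sum_univ_three] at this
      have h3 := congrArg B h2
      rw [map_add, map_add, map_zero] at h3
      rw [map_add, map_add, map_smul, map_smul, map_smul] at h1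
      rw [← sub_zero (0 : V)]
      nth_rw 2 [← h1]
      rw [← h3]
      abel
  set κ : L := (a 0 - a 1) * (a 1 - a 2) * (a 0 - a 2) * Q a with hκ
  have hκ0 : κ ≠ 0 := by
    have h1 : a 0 - a 1 ≠ 0 := sub_ne_zero.mpr fun h' => by simpa using hai h'
    have h2 : a 1 - a 2 ≠ 0 := sub_ne_zero.mpr fun h' => by simpa using hai h'
    have h3 : a 0 - a 2 ≠ 0 := sub_ne_zero.mpr fun h' => by simpa using hai h'
    exact mul_ne_zero (mul_ne_zero (mul_ne_zero h1 h2) h3) (hG.ne a hai)
  have hBw : ∀ v, Kr S v → B (S 1 (v 0)) = S 1 (B (v 0) - a 0 • c (v 0)) +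
      κ • S 1 (S 0 (G (S 1 (v 0)))) := by
    intro v hv
    obtain ⟨e1, e2, e3, e4, e5⟩ := (hΦm v hv).rel h.sum
    have h1 := hB' 1 (v 0)
    rw [hcw v hv, smul_zero, sub_zero] at h1
    have h2 : S 1 (c (v 0)) = ((a 1 - a 2) * Q a * (a 0 - a 2)) • S 1 (S 0 (G (S 1 (v 0)))) := by
      rw [hcv0 v hv, map_smul, map_add, map_add, map_smul, map_smul, map_smul, e5,
        hG.sq v hv 1]
      module
    rw [h1, map_sub, map_smul, h2, hκ]
    module
  -- the value of x
  set x : L := 3 with hx
  set b : Fin 3 → L := fun s => (a s - x)⁻¹ with hb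
  have hax : ∀ s, a s - x ≠ 0 := by
    intro s
    fin_cases s
    · show ((0 : ℤ) : L) - 3 ≠ 0
      norm_num
    · show ((1 : ℤ) : L) - 3 ≠ 0
      norm_num
    · show ((2 : ℤ) : L) - 3 ≠ 0
      norm_num
  have hbi : Function.Injective b := by
    intro i j hij
    have := inv_injective hij
    exact hai (sub_left_injective this)
  have hcomm := comm_Tb (x := x) (b := b) h.sum hB (fun s => inv_mul_cancel₀ (hax s))
  set cx := B - x • c with hcx
  have hcommp : ∀ n v, cx ((Ta S b ^ n) v) = (Ta S b ^ n) (cx v) := by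
    intro n v
    have h1 : Commute cx (Ta S b) := hcomm
    exact LinearMap.congr_fun (h1.pow_right n).eq v
  have hcxv : ∀ v, Kr S v → cx (b 0 • v 0 + b 1 • v 1 + b 2 • v 2) =
      b 0 • (B (v 0) - a 0 • c (v 0)) + b 1 • (B (v 1) - a 1 • c (v 1)) +
        b 2 • (B (v 2) - a 2 • c (v 2)) := by
    intro v hv
    have h2 : v 0 + v 1 + v 2 = 0 := by
      have := hv.2
      rwa [Fin.sum_univ_three] at this
    have h3 := congrArg c h2
    rw [map_add, map_add, map_zero] at h3
    have h4 : ∀ s, b s • cx (v s) = b s • (B (v s) - a s • c (v s)) + c (v s) := by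
      intro s
      have h5 : cx (v s) = (B (v s) - a s • c (v s)) + (a s - x) • c (v s) := by
        rw [hcx, LinearMap.sub_apply, LinearMap.smul_apply, sub_smul]
        abel
      rw [h5, smul_add, smul_smul, inv_mul_cancel₀ (hax s), one_smul]
    rw [map_add, map_add, map_smul, map_smul, map_smul, h4, h4, h4]
    have h6 : ∀ x y z x' y' z' : V, x + x' + (y + y') + (z + z') = x + y + z + (x' + y' + z') := by
      intros; abel
    rw [h6, h3, add_zero]
  -- the key relation
  have key : ∀ v, Kr S v → (fun s => B (S s (G (S 1 (v 0)))) - a s • c (S s (G (S 1 (v 0))))) =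
      (fun s => S s (G (S 1 (B (v 0) - a 0 • c (v 0))))) +
        κ • (fun s => S s (G (S 1 (S 0 (G (S 1 (v 0))))))) := by
    intro v hv
    have hk1 := hβm _ (hΦm v hv)
    have hk2 := hΦm _ (hβm v hv)
    have hk3 := hΦm _ (hΦm v hv)
    have hk : (fun s => B (S s (G (S 1 (v 0)))) - a s • c (S s (G (S 1 (v 0))))) -
        ((fun s => S s (G (S 1 (B (v 0) - a 0 • c (v 0))))) +
        κ • (fun s => S s (G (S 1 (S 0 (G (S 1 (v 0)))))))) ∈ KrM S :=
      Submodule.sub_mem _ hk1 (Submodule.add_mem _ hk2 (Submodule.smul_mem _ _ hk3))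
    rw [← sub_eq_zero]
    refine Kr.eq_zero' h hk hbi ?_
    have h1 := hcommp (N - 2) (S 1 (v 0))
    rw [hG.pow v hv, map_smul, Ta_apply] at h1
    have h2 := hcxv _ (hΦm v hv)
    rw [h2] at h1
    have h3 : cx (S 1 (v 0)) = S 1 (B (v 0) - a 0 • c (v 0)) +
        κ • S 1 (S 0 (G (S 1 (v 0)))) := by
      rw [hcx, LinearMap.sub_apply, LinearMap.smul_apply, hcw v hv, smul_zero, sub_zero, hBw v hv]
    rw [h3, map_add, map_smul] at h1
    have h4 := hG.pow _ (hβm v hv) b
    have h5 := hG.pow _ (hΦm v hv) b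
    rw [h4, h5, smul_comm κ, ← smul_add] at h1
    have h6 := smul_right_injective V (hG.ne b hbi) h1
    rw [Ta_apply, Ta_apply] at h6
    simp only [Pi.sub_apply, Pi.add_apply, Pi.smul_apply]
    rw [← sub_eq_zero] at h6
    rw [← h6]
    module
  -- the linear maps
  let Φ : KrM S →ₗ[L] KrM S :=
    { toFun := fun v => ⟨fun s => S s (G (S 1 ((v : Fin 3 → V) 0))), hΦm _ v.2⟩
      map_add' := fun u v => by
        apply Subtype.ext
        funext s
        simp
      map_smul' := fun r v => by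
        apply Subtype.ext
        funext s
        simp }
  let β : KrM S →ₗ[L] KrM S :=
    { toFun := fun v => ⟨fun s => B ((v : Fin 3 → V) s) - a s • c ((v : Fin 3 → V) s), hβm _ v.2⟩
      map_add' := fun u v => by
        apply Subtype.ext
        funext s
        simp only [Submodule.coe_add, Pi.add_apply, map_add, smul_add]
        abel
      map_smul' := fun r v => by
        apply Subtype.ext
        funext s
        simp only [Submodule.coe_smul, Pi.smul_apply, map_smul, RingHom.id_apply]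
        rw [smul_sub, smul_comm r] }
  have hkey : β * Φ = Φ * β + κ • (Φ * Φ) := by
    refine LinearMap.ext fun v => Subtype.ext ?_
    have := key _ v.2
    exact this
  have hΦi : Function.Injective Φ := by
    rw [← LinearMap.ker_eq_bot, LinearMap.ker_eq_bot']
    intro v hv
    have h1 : (fun s => S s (G (S 1 ((v : Fin 3 → V) 0)))) = 0 := congrArg Subtype.val hv
    have h2 : G (S 1 ((v : Fin 3 → V) 0)) = 0 := h.inf fun s => congrFun h1 s
    exact Subtype.ext (Kr.eq_zero h v.2 (hG.inj _ v.2 h2))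
  let Φe : KrM S ≃ₗ[L] KrM S := LinearEquiv.ofInjectiveEndo Φ hΦi
  have hΦe : ∀ v, Φe v = Φ v := fun v => rfl
  let Ψ : KrM S →ₗ[L] KrM S := Φe.symm.toLinearMap
  have hΨΦ : Ψ * Φ = 1 := by
    refine LinearMap.ext fun v => ?_
    show Φe.symm (Φ v) = v
    rw [← hΦe, LinearEquiv.symm_apply_apply]
  have hΦΨ : Φ * Ψ = 1 := by
    refine LinearMap.ext fun v => ?_
    show Φ (Φe.symm v) = v
    rw [← hΦe, LinearEquiv.apply_symm_apply]
  have h7 : Ψ * β = β * Ψ + κ • (1 : End L (KrM S)) := by
    calc Ψ * β = Ψ * (β * Φ) * Ψ := by rw [mul_assoc Ψ, mul_assoc β, hΦΨ, mul_one]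
      _ = Ψ * (Φ * β + κ • (Φ * Φ)) * Ψ := by rw [hkey]
      _ = (Ψ * Φ) * β * Ψ + κ • ((Ψ * Φ) * (Φ * Ψ)) := by
        rw [mul_add, add_mul, mul_smul_comm, smul_mul_assoc]
        simp only [mul_assoc]
      _ = β * Ψ + κ • (1 : End L (KrM S)) := by rw [hΨΦ, hΦΨ, one_mul, one_mul]
  have h8 := congrArg (LinearMap.trace L (KrM S)) h7
  rw [map_add, LinearMap.trace_mul_comm, map_smul, LinearMap.trace_one, smul_eq_mul,
    left_eq_add] at h8
  have h9 : finrank L (KrM S) = 0 := by
    have := (mul_eq_zero.mp h8).resolve_left hκ0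
    exact_mod_cast this
  exact Submodule.finrank_eq_zero.mp h9

/-- **`[K]`** -/
theorem stmtK [CharZero L] (hT2 : StmtT2 q S) : StmtK q S := by
  intro p h hr N P z Q G hC hG hz
  have hK := no_rel hT2 h hr hC hG hz
  by_contra hne
  have hnt : Nontrivial V := Module.nontrivial_of_finrank_pos (R := L) (Nat.pos_of_ne_zero hne)
  -- the sum of the kernels
  let f : (∀ s, LinearMap.ker (S s)) →ₗ[L] V :=
    ∑ s, (LinearMap.ker (S s)).subtype ∘ₗ LinearMap.proj s
  have hf : ∀ v, f v = ∑ s, (v s : V) := fun v => by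
    simp only [f, LinearMap.sum_apply, LinearMap.comp_apply, LinearMap.proj_apply,
      Submodule.subtype_apply]
  have hfi : Function.Injective f := by
    rw [← LinearMap.ker_eq_bot, LinearMap.ker_eq_bot']
    intro v hv
    have h1 : (fun s => (v s : V)) ∈ KrM S := ⟨fun s => (v s).2, by rw [← hf]; exact hv⟩
    rw [hK, Submodule.mem_bot] at h1
    funext s
    exact Subtype.ext (congrFun h1 s)
  have hfs : Function.Surjective f := by
    rw [← LinearMap.injective_iff_surjective_of_finrank_eq_finrank]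
    · exact hfi
    · rw [Module.finrank_pi_fintype]
      exact h.tot
  -- a vector killed by `T`
  set a : Fin 3 → L := ![0, 1, 2] with ha
  have hTn : IsNilpotent (Ta S a) := by
    obtain ⟨n, hn⟩ := hz
    refine ⟨N * n, ?_⟩
    rw [pow_mul, hC.pow a, smul_pow, hn, smul_zero]
  obtain ⟨u, hu0, hu⟩ : ∃ u : V, u ≠ 0 ∧ Ta S a u = 0 := by
    by_contra hcon
    push Not at hcon
    have hinj : Function.Injective (Ta S a) := by
      rw [← LinearMap.ker_eq_bot, LinearMap.ker_eq_bot']
      intro u hu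
      by_contra hu0
      exact hcon u hu0 hu
    obtain ⟨n, hn⟩ := hTn
    have h1 : ∀ k, Function.Injective (Ta S a ^ k : End L V) := by
      intro k
      induction k with
      | zero => exact fun x y h => h
      | succ k ih =>
        rw [pow_succ]
        exact ih.comp hinj
    obtain ⟨x, hx⟩ := exists_ne (0 : V)
    apply hx
    apply h1 n
    rw [hn]
    rfl
  have hsum : S 0 u + S 1 u + S 2 u = 0 := by
    have := LinearMap.congr_fun h.sum u
    rw [Fin.sum_univ_three] at this
    exact this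
  rw [Ta_apply] at hu
  have hu' : S 1 u + (2 : L) • S 2 u = 0 := by
    have : a 0 • S 0 u + a 1 • S 1 u + a 2 • S 2 u = S 1 u + (2 : L) • S 2 u := by
      simp [ha]
    rw [← this, hu]
  have e1 : S 1 u = -((2 : L) • S 2 u) := eq_neg_of_add_eq_zero_left hu'
  have e0 : S 0 u = S 2 u := by
    rw [e1] at hsum
    rw [← sub_eq_zero, ← hsum]
    module
  have hw : S 2 u = 0 := by
    apply h.form.nondeg
    intro y
    obtain ⟨v, rfl⟩ := hfs y
    rw [hf, map_sum]
    refine Finset.sum_eq_zero fun s _ => ?_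
    fin_cases s
    · show q (S 2 u) (v 0 : V) = 0
      rw [← e0, h.sa, (v 0).2, map_zero]
    · show q (S 2 u) (v 1 : V) = 0
      have h2 : (2 : L) ≠ 0 := two_ne_zero
      have : (2 : L) * q (S 2 u) (v 1 : V) = 0 := by
        have h3 : q (S 1 u) (v 1 : V) = 0 := by rw [h.sa, (v 1).2, map_zero]
        rw [e1, map_neg, map_smul, LinearMap.neg_apply, LinearMap.smul_apply, smul_eq_mul,
          neg_eq_zero] at h3
        exact h3
      exact (mul_eq_zero.mp this).resolve_left h2
    · show q (S 2 u) (v 2 : V) = 0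
      rw [h.sa, (v 2).2, map_zero]
  apply hu0
  refine h.inf fun s => ?_
  fin_cases s
  · show S 0 u = 0
    rw [e0, hw]
  · show S 1 u = 0
    rw [e1, hw, smul_zero, neg_zero]
  · exact hw

end main

end Vale.Agent.P182.H89
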